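import Vale.Agent.P057TP.Plan

/-!
Theta values of separated lattices.
-/

set_option linter.all false

open Matrix Finset
open scoped Real
open Vale.Agent.P267.H775 Vale.Agent.P057G Vale.Agent.P057PC Vale.Agent.P057TP

namespace Vale.Agent.P057TE

noncomputable section

variable {κ : Type*} [Fintype κ] [DecidableEq κ] {G : Matrix κ κ ℝ}

theorem card_short (hG : G.PosDef) (l : κ → ℤ) {N : ℝ} (hN : 0 ≤ N)
    (h1 : ∀ z : κ → ℤ, z ≠ 0 → l ⬝ᵥ z = 0 → 1 ≤ qq G (toR z))
    (h2 : ∀ x, (toR l ⬝ᵥ x) ^ 2 ≤ N ^ 2 * qq G x) {r : ℕ} (hr : 1 ≤ r) (s : Finset (κ → ℤ))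
    (hs : ∀ z ∈ s, qq G (toR z) < r) :
    (s.card : ℝ) ≤ (2 * r) ^ Fintype.card κ * (2 * (N * r) + 1) := by
  have hr' : (1 : ℝ) ≤ r := by exact_mod_cast hr
  haveI : NeZero (2 * r) := ⟨by omega⟩
  have hl : ∀ z : κ → ℤ, ((l ⬝ᵥ z : ℤ) : ℝ) = toR l ⬝ᵥ toR z := fun z => by simp [dotProduct]
  have h3 := card_le_card_of_injOn (s := s)
    (t := (univ : Finset (κ → ZMod (2 * r))) ×ˢ Icc (-(⌊N * r⌋₊ : ℤ)) ⌊N * r⌋₊)
    (fun z => (fun i => (z i : ZMod (2 * r)), l ⬝ᵥ z)) (fun z hz => ?_) fun z hz z' hz' h => ?_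
  · rw [card_product, card_univ, Fintype.card_fun, ZMod.card, Int.card_Icc] at h3
    have h4 : ((⌊N * r⌋₊ : ℤ) + 1 - -(⌊N * r⌋₊ : ℤ)).toNat = 2 * ⌊N * r⌋₊ + 1 := by omega
    rw [h4] at h3
    have h5 := Nat.floor_le (mul_nonneg hN (Nat.cast_nonneg r))
    refine (Nat.cast_le.2 h3).trans ?_
    push_cast
    gcongr
  · have h4 : |((l ⬝ᵥ z : ℤ) : ℝ)| ≤ N * r := by
      refine abs_le_of_sq_le_sq' ?_ (by positivity) |> abs_le.2
      rw [hl, mul_pow]
      refine (h2 _).trans (mul_le_mul_of_nonneg_left ((hs z hz).le.trans ?_) (sq_nonneg N))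
      nlinarith
    have h5 : (l ⬝ᵥ z).natAbs ≤ ⌊N * r⌋₊ := Nat.le_floor (by rwa [Nat.cast_natAbs, Int.cast_abs])
    simp only [coe_product, coe_univ, Set.mem_prod, Set.mem_univ, true_and, mem_coe, mem_Icc]
    omega
  · obtain ⟨h4, h5⟩ := Prod.ext_iff.1 h
    have h6 : ∀ i, ∃ w, z' i - z i = ((2 * r : ℕ) : ℤ) * w := fun i =>
      (ZMod.intCast_eq_intCast_iff_dvd_sub _ _ _).1 (congrFun h4 i)
    choose w hw using h6
    have h7 : z' - z = ((2 * r : ℕ) : ℤ) • w := funext hw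
    by_contra hne
    have h8 : w ≠ 0 := fun h0 => hne (by rw [h0, smul_zero, sub_eq_zero] at h7; exact h7.symm)
    have h9 : l ⬝ᵥ w = 0 := by
      have : l ⬝ᵥ (z' - z) = 0 := by rw [dotProduct_sub]; exact sub_eq_zero.2 h5.symm
      rw [h7, dotProduct_smul, smul_eq_mul] at this
      exact (mul_eq_zero.1 this).resolve_left (by omega)
    have h10 : toR z' - toR z = (2 * r : ℝ) • toR w := by
      funext i
      have := congrArg (Int.cast : ℤ → ℝ) (hw i)
      push_cast at this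
      exact this
    have h11 := qq_sub hG.1 (toR z') (toR z)
    have h12 := qq_add hG.1 (toR z') (toR z)
    have h13 := qq_nonneg hG.posSemidef (toR z' + toR z)
    rw [h10, qq_smul] at h11
    have := h1 w h8 h9
    have := hs z hz
    have := hs z' hz'
    nlinarith

/-- the theta value of a lattice that is separated on the kernel of a short form -/
theorem th_sep (hG : G.PosDef) (l : κ → ℤ) {N : ℝ} (hN : 0 ≤ N)
    (h1 : ∀ z : κ → ℤ, z ≠ 0 → l ⬝ᵥ z = 0 → 1 ≤ qq G (toR z))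
    (h2 : ∀ x, (toR l ⬝ᵥ x) ^ 2 ≤ N ^ 2 * qq G x) :
    th G 0 ≤ max 1 N * Real.exp (4 * ((Fintype.card κ : ℝ) + 1) ^ 2) := by
  set D := Fintype.card κ with hD
  have hs := summable_gs hG 0
  have h3 := tail_norm hG 0 ((D + 1 : ℕ) : ℝ)
  have h4 : ∑' z : κ → ℤ, (if ¬ ((D + 1 : ℕ) : ℝ) ≤ qq G (toR z - 0) then gs G (toR z - 0) else 0) ≤
      (2 * (D + 1 : ℕ)) ^ D * (2 * (N * (D + 1 : ℕ)) + 1) := by
    refine Real.tsum_le_of_sum_le (fun z => ?_) fun u => ?_
    · beta_reduce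
      split_ifs
      exacts [le_rfl, (gs_pos _ _).le]
    · rw [← sum_filter]
      refine (sum_le_card_nsmul _ _ 1 fun z _ => gs_le_one hG.posSemidef _).trans ?_
      rw [nsmul_one]
      exact card_short hG l hN h1 h2 (by omega) _ fun z hz => by
        simpa using (mem_filter.1 hz).2
  have h5 := (summable_ind hs fun z => ((D + 1 : ℕ) : ℝ) ≤ qq G (toR z - 0)).tsum_add
    (summable_ind hs fun z => ¬ ((D + 1 : ℕ) : ℝ) ≤ qq G (toR z - 0))
  have h6 : th G 0 = _ := (tsum_congr fun z => by split_ifs <;> simp).trans h5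
  have h7 : Real.exp (-(π * ((D + 1 : ℕ) : ℝ) / 2)) * √2 ^ D ≤ 1 / 2 := by
    have e1 : √2 ≤ Real.exp (π / 2) := by
      have := Real.add_one_le_exp (π / 2)
      have : √2 ≤ 2 := Real.sqrt_le_iff.2 ⟨by norm_num, by norm_num⟩
      linarith [Real.two_le_pi]
    have e2 := pow_le_pow_left₀ (Real.sqrt_nonneg 2) e1 D
    rw [← Real.exp_nat_mul] at e2
    refine (mul_le_mul_of_nonneg_left e2 (Real.exp_pos _).le).trans ?_
    rw [← Real.exp_add, show -(π * ((D + 1 : ℕ) : ℝ) / 2) + D * (π / 2) = -(π / 2) by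
      push_cast; ring, Real.exp_neg, ← one_div]
    refine one_div_le_one_div_of_le two_pos ?_
    linarith [Real.add_one_le_exp (π / 2), Real.two_le_pi]
  have h8 := mul_le_mul_of_nonneg_right h7 (th_nonneg G 0)
  rw [mul_assoc] at h8
  have hx : (1 : ℝ) ≤ D + 1 := by simp
  push_cast at h4 h3 h6 h8
  set x : ℝ := D + 1
  have e1 : (2 * x) ^ D ≤ Real.exp (2 * x ^ 2) := by
    refine (pow_le_pow_left₀ (by positivity) (b := Real.exp (2 * x))
      (by linarith [Real.add_one_le_exp (2 * x)]) D).trans ?_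
    rw [← Real.exp_nat_mul]
    exact Real.exp_le_exp.2 (by nlinarith)
  have e2 : 2 * (2 * (N * x) + 1) ≤ max 1 N * Real.exp (2 * x ^ 2) := by
    have a1 := le_max_left 1 N
    have a2 := le_max_right 1 N
    have a3 : 6 * x ≤ Real.exp (2 * x ^ 2) := by
      have b1 := Real.add_one_le_exp (x ^ 2)
      have b2 := Real.quadratic_le_exp_of_nonneg (sq_nonneg x)
      rw [two_mul, Real.exp_add]
      nlinarith [mul_le_mul b2 b2 (by positivity) (Real.exp_pos _).le, sq_nonneg (x ^ 2 - 1),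
        sq_nonneg (x - 1), pow_pos (by linarith : 0 < x) 4, one_le_pow₀ (n := 2) hx]
    nlinarith
  have e3 := mul_le_mul e1 e2 (by positivity) (Real.exp_pos _).le
  rw [mul_left_comm (Real.exp _), ← Real.exp_add, show 2 * x ^ 2 + 2 * x ^ 2 = 4 * x ^ 2 by ring] at e3
  linarith

/-- extension by zero -/
def ez {α : Type*} [Zero α] (P : κ → Prop) [DecidablePred P] (x : {a // P a} → α) : κ → α :=
  fun a => if h : P a then x ⟨a, h⟩ else 0

section ez

variable {P : κ → Prop} [DecidablePred P]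

omit [Fintype κ] [DecidableEq κ] in
theorem rs_ez {α : Type*} [Zero α] (x : {a // P a} → α) : rs P (ez P x) = x :=
  funext fun a => dif_pos a.2

omit [Fintype κ] [DecidableEq κ] in
theorem toR_ez (x : {a // P a} → ℤ) : toR (ez P x) = ez P (toR x) := by
  funext a
  by_cases h : P a <;> simp [ez, h]

omit [DecidableEq κ] in
theorem dot_ez {R : Type*} [CommRing R] (l : κ → R) (x : {a // P a} → R) :
    l ⬝ᵥ ez P x = rs P l ⬝ᵥ x := by
  rw [dotProduct, ← Fintype.sum_subtype_add_sum_subtype P, dotProduct,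
    sum_eq_zero (s := (univ : Finset {a // ¬ P a})) fun a _ => by simp [ez, a.2], add_zero]
  exact sum_congr rfl fun a _ => by simp [ez, a.2, rs]

omit [DecidableEq κ] in
theorem qq_ez (G : Matrix κ κ ℝ) (x : {a // P a} → ℝ) : qq G (ez P x) = qq (bk G P) x := by
  rw [qq, dotProduct_comm, dot_ez, dotProduct_comm, qq]
  congr 1
  funext a
  exact dot_ez _ x

omit [DecidableEq κ] in
theorem qq_rs_le (hG : G.PosDef) (h : Ort G P) (x : κ → ℝ) : qq (bk G P) (rs P x) ≤ qq G x := by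
  rw [qq_split hG.1 h x]
  exact le_add_of_nonneg_right (qq_nonneg (posDef_bk hG _).posSemidef _)

omit [Fintype κ] [DecidableEq κ] in
theorem ez_ne {z : {a // P a} → ℤ} (hz : z ≠ 0) : ez P z ≠ 0 := fun h =>
  hz (by rw [← rs_ez z, h]; rfl)

end ez

theorem ms_eq (hG : G.PosDef) : ms G (fun _ => 0) = th G 0 * Real.exp (Real.log G.det / 2) := by
  rw [ms_zero hG, th_zero_eq hG, vol, ← Real.log_sqrt hG.det_pos.le,
    Real.exp_log (Real.sqrt_pos.2 hG.det_pos)]
  have := Real.sqrt_pos.2 hG.det_pos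
  field_simp

theorem one_le_ms (hG : G.PosDef) : 1 ≤ ms G fun _ => 0 := by
  rw [ms_zero hG]; exact one_le_th_zero hG.inv

theorem card_lv (T : Tow) (e : ℕ) : (Fintype.card {a // T.lv a = e} : ℝ) = T.dm e := by
  rw [Tow.dm, Fintype.card_subtype]

theorem th_blk {T : Tow} {s : ℕ} {N : ℝ} (h : T.Ok s N) (e : ℕ) {M : ℝ} (hM : 0 ≤ M)
    (h2 : ∀ x, (toR (rs (fun a => T.lv a = e) T.el) ⬝ᵥ x) ^ 2 ≤
      M ^ 2 * qq (bk T.G fun a => T.lv a = e) x) :
    ms (bk T.G fun a => T.lv a = e) (fun _ => 0) ≤ max 1 M *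
      Real.exp (Real.log (bk T.G fun a => T.lv a = e).det / 2 + 4 * (T.dm e + 1) ^ 2) := by
  have hG := posDef_bk h.pd fun a => T.lv a = e
  have := th_sep hG _ hM (fun z hz h0 => by
    rw [← qq_ez, ← toR_ez]
    exact h.sep _ (ez_ne hz) ((dot_ez _ _).trans h0)) h2
  rw [card_lv] at this
  rw [ms_eq hG, add_comm, Real.exp_add, ← mul_assoc]
  exact mul_le_mul_of_nonneg_right this (Real.exp_pos _).le

theorem ms_blk {T : Tow} {s : ℕ} {N : ℝ} (h : T.Ok s N) (hN : 1 ≤ N) (e : ℕ) :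
    ms (bk T.G fun a => T.lv a = e) (fun _ => 0) ≤ Real.exp (T.yy N e + 4 * (T.dm e + 1) ^ 2) := by
  rw [Tow.yy]
  split_ifs with he
  · refine (th_blk h e (M := N) (by linarith) fun x => ?_).trans (le_of_eq ?_)
    · rw [← qq_ez]
      exact le_trans (le_of_eq (congrArg (· ^ 2) (dot_ez (toR T.el) x).symm)) (h.elN _)
    · rw [max_eq_right hN, add_right_comm, Real.exp_add _ (Real.log N),
        Real.exp_log (by linarith), mul_comm]
  · refine (th_blk h e le_rfl fun x => ?_).trans (le_of_eq (by simp))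
    have : rs (fun a => T.lv a = e) T.el = 0 := funext fun a => h.el1 a (by rw [a.2]; exact he)
    simp [this, toR_zero]

theorem thb : THB := by
  refine ⟨4, fun T s N h hN => ⟨fun e => ⟨by exact_mod_cast ms_blk h hN e, ?_⟩, fun h0 => ?_⟩⟩
  · have := Real.one_le_exp_iff.1 ((one_le_ms (posDef_bk h.pd _)).trans (ms_blk h hN e))
    push_cast; linarith
  · have h1 := (one_le_ms (posDef_bk h.pd _)).trans (th_blk h 1 le_rfl fun x => by
      have : rs (fun a => T.lv a = 1) T.el = 0 := by rw [h0]; rfl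
      simp [this, toR_zero])
    rw [max_eq_left zero_le_one, one_mul] at h1
    have := Real.one_le_exp_iff.1 h1
    rw [Tow.yy, if_pos rfl]
    push_cast; linarith

end

end Vale.Agent.P057TE
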