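import Vale.Agent.P057TE.Diag

/-!
The centred symbol cube of a tower on a finite set of vertices.
-/

set_option linter.all false

open Matrix Finset
open Vale.Agent.P267.H775 Vale.Agent.P057G Vale.Agent.P057PC Vale.Agent.P057TP Vale.Agent.P057MA

namespace Vale.Agent.P057TE

noncomputable section

/-- a coordinate of level below `m` with a face from a family closed under subsets -/
def SL (T : Tow) {V : Type} (D : Finset V → Prop) (m : ℕ) : Type :=
  {x : T.ι × Finset V // T.lv x.1 < m ∧ x.2.card = T.lv x.1 ∧ D x.2}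

variable {T : Tow} {V : Type} {D : Finset V → Prop} {m s : ℕ} {N : ℝ}

instance : DecidableEq (SL T D m) := Classical.decEq _

instance [Finite V] : Finite (SL T D m) := by
  have := Fintype.ofFinite V
  unfold SL; infer_instance

instance [Finite V] : Fintype (SL T D m) := Fintype.ofFinite _

def SL.cd (l : SL T D m) : T.ι := l.1.1
def SL.fc (l : SL T D m) : Finset V := l.1.2

theorem fr_sl (hD : ∀ F F', D F → F' ⊆ F → D F') : Fr T.lv (SL.cd (T := T) (D := D) (m := m)) SL.fc :=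
  ⟨fun _ _ a b => Subtype.ext (Prod.ext a b), fun l => l.2.2.1, fun l F a h1 h2 =>
    ⟨⟨(a, F), (h2.symm.trans_le ((card_le_card h1).trans l.2.2.1.le)).trans_lt l.2.1, h2,
      hD _ _ l.2.2.2 h1⟩, rfl, rfl⟩⟩

variable [Fintype V] [DecidableEq V]

/-- the symbol cube, Gram matrix multiplied by `lam` -/
def sym (T : Tow) (D : Finset V → Prop) (m : ℕ) (lam : ℝ) : MS V (SL T D m) :=
  sys T SL.cd SL.fc 0 lam

theorem sym_ok (hT : T.Ok s N) (hD : ∀ F F', D F → F' ⊆ F → D F') {lam : ℝ} (hl : 0 < lam) :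
    (sym T D m lam).Ok := (fr_sl hD).sys_ok hT 0 hl

theorem sym_cen (hT : T.Ok s N) (hD : ∀ F F', D F → F' ⊆ F → D F') (lam : ℝ) :
    (sym T D m lam).Cen := (fr_sl hD).sys_cen hT lam

theorem sym_smo (hT : T.Ok s N) (hD : ∀ F F', D F → F' ⊆ F → D F') {n A lam W : ℝ} {k : ℕ}
    (hLF : T.LFd (m - 1) n A) (hn : (Fintype.card V : ℝ) * k ≤ n) (hl : 0 < lam) (hW : 0 < W)
    (hA : W ^ 2 * lam ≤ Real.exp A) : Smo (sym T D m lam) univ k W (Real.exp (-A)) :=
  (fr_sl hD).smo hT hLF (fun l => Nat.le_sub_one_of_lt l.2.1)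
    (Nat.le_floor (by rwa [Nat.cast_mul])) hl hW hA

theorem card_sl (hD : ∀ F F', D F → F' ⊆ F → D F') :
    Fintype.card (SL T D m) ≤ Fintype.card T.ι * 2 ^ Fintype.card V := (fr_sl hD).card_le

/-- the centres on the diagonal -/
theorem cv_dgl (hT : T.Ok s N) (y : T.ι → ℝ) {a : T.ι} {F : Finset V} (hF : F.card = T.lv a)
    (hm : T.lv a ≤ m) : cv T (SL.cd (D := fun _ => True) (m := m)) SL.fc a F (dgl SL.cd SL.fc y) =
      F.card.factorial * MvPolynomial.eval y (T.q a) := by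
  classical
  have h := fr_sl (T := T) (D := fun _ : Finset V => True) (m := m) fun _ _ _ _ => trivial
  let y' : T.ι → ℝ := fun b => if T.lv b < T.lv a then y b else 0
  have h1 := (P057PC.Sup.eval_sub (I := fun m : Multiset V => ¬ m.Nodup)
    (fun m m' h1 h2 => h1 (Multiset.nodup_add.1 h2).1)
    (x := (fr SL.cd SL.fc 0).pt (dgl (SL.cd (D := fun _ => True) (m := m)) SL.fc y'))
    (x' := fun b => (P057ST.lin fun _ => 1) ^ T.lv b * algebraMap ℝ _ (y' b)) (fun b μ hμ h2 => hμ ?_)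
    (MvPolynomial.map (algebraMap ℝ _) (T.tw.q a) + (fr (SL.cd (D := fun _ => True) (m := m))
      SL.fc 0).R a)).coeff (not_not.2 F.nodup)
  · rw [← Cf.val_eq, AddMonoidAlgebra.coeff_sub, Finsupp.sub_apply, sub_eq_zero] at h1
    rw [P057TE.cv, (h.ok 0).val_congr (ok_tw hT) (x := dgl SL.cd SL.fc y) (x' := dgl SL.cd SL.fc y')
      fun l hl => congrArg (_ * ·) (if_pos hl).symm, h1]
    change AddMonoidAlgebra.coeff (MvPolynomial.eval _ (MvPolynomial.map _ (T.q a) + 0)) _ = _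
    rw [add_zero, MvPolynomial.eval_map, ← MvPolynomial.aeval_def, aeval_scale (hT.hom a),
      show (fun b => algebraMap ℝ (Alg (Multiset V)) (y' b)) = algebraMap ℝ _ ∘ y' from rfl,
      MvPolynomial.aeval_algebraMap_apply, mul_comm, ← Algebra.smul_def,
      AddMonoidAlgebra.coeff_smul, Finsupp.smul_apply, coeff_pow, if_pos hF, hF, smul_eq_mul,
      mul_comm, MvPolynomial.aeval_eq_eval]
    exact congrArg _ (MvPolynomial.eval₂Hom_congr' rfl (fun j hj _ => if_pos (hT.low a j hj)) rfl)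
  · have h4 := coeff_pow (T.lv b) (⟨μ, h2⟩ : Finset V)
    rw [AddMonoidAlgebra.coeff_sub, Finsupp.sub_apply, mul_comm, ← Algebra.smul_def,
      AddMonoidAlgebra.coeff_smul, Finsupp.smul_apply, h4, smul_eq_mul, sub_eq_zero]
    by_cases h5 : (⟨μ, h2⟩ : Finset V).card = T.lv b ∧ T.lv b < T.lv a
    · rw [if_pos h5.1, mul_comm, ← h5.1]
      exact (h.ok 0).coeff_pt _ ⟨(b, ⟨μ, h2⟩), h5.2.trans_le hm, h5.1, trivial⟩
    · rw [Cf.coeff_pt, sum_eq_zero fun l _ => ?_]
      · by_cases h6 : T.lv b < T.lv a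
        · rw [if_neg fun h7 => h5 ⟨h7, h6⟩, mul_zero]
        · simp [y', h6]
      · split_ifs with h6
        · obtain ⟨rfl, h7⟩ := h6
          have : ¬ T.lv l.cd < T.lv a := fun h8 =>
            h5 ⟨(congrArg Multiset.card h7).symm.trans (h.card l), h8⟩
          exact (congrArg (_ * ·) (if_neg this)).trans (mul_zero _)
        · rfl

end

end Vale.Agent.P057TE
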