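import Vale.Agent.P057TE.Diag

/-!
The certificate from an approximate integer relation.
-/

set_option linter.all false

open Matrix Finset
open Vale.Agent.P267.H775 Vale.Agent.P057G Vale.Agent.P057PC Vale.Agent.P057TP

namespace Vale.Agent.P057TE

noncomputable section

/-- the levels below `j`, narrowed by `W`, with the integer multiplied by `M` -/
abbrev low (T : Tow) (j : ℕ) (W : ℝ) (M : ℤ) : Tow where
  ι := {a // T.lv a < j}
  lv a := T.lv a
  q a := MvPolynomial.aeval (ez (fun b => T.lv b < j) MvPolynomial.X) (T.q a)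
  G := W • bk T.G fun a => T.lv a < j
  el a := M * T.el a

/-- the dilation -/
def dla (T : Tow) (j : ℕ) (M : ℤ) : T.ι → MvPolynomial {a // T.lv a < j} ℤ :=
  ez (fun b => T.lv b < j) fun a => MvPolynomial.C (M ^ T.lv a) * MvPolynomial.X a

variable {T : Tow} {s j : ℕ} {N W : ℝ} {M : ℤ}

theorem ap_dla (y : {a // T.lv a < j} → ℝ) :
    ap (dla T j M) y = fun a => (M : ℝ) ^ T.lv a * ez (fun b => T.lv b < j) y a := by
  funext a
  by_cases h : T.lv a < j <;> simp [ap, dla, ez, h]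

theorem eval_low (y : {a // T.lv a < j} → ℝ) (Q : MvPolynomial T.ι ℝ) :
    MvPolynomial.eval y (MvPolynomial.aeval (ez (fun b => T.lv b < j) MvPolynomial.X) Q) =
      MvPolynomial.eval (ez (fun b => T.lv b < j) y) Q := by
  rw [← MvPolynomial.aeval_eq_eval, ← MvPolynomial.aeval_eq_eval, MvPolynomial.aeval_eq_bind₁,
    MvPolynomial.aeval_bind₁]
  congr 2
  funext b
  by_cases h : T.lv b < j <;> simp [ez, h]

theorem ln_low (y : {a // T.lv a < j} → ℝ) {e : ℕ} (he : e < j) :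
    (low T j W M).ln e y = W * T.ln e (ez (fun b => T.lv b < j) y) := by
  refine (qq_smul_mat _ W _).trans (congrArg (W * ·) ((qq_ez _ _).symm.trans (congrArg _ ?_)))
  funext a
  by_cases h : T.lv a < j
  · refine (dif_pos h).trans (if_congr Iff.rfl ?_ rfl)
    rw [Tow.ps, Tow.ps, ← eval_low, ez, dif_pos h]
  · exact (dif_neg h).trans (if_neg fun h2 => h (h2.trans_lt he)).symm

theorem ln_scale (hT : T.Ok s N) (t : ℝ) (y : T.ι → ℝ) (e : ℕ) :
    T.ln e (fun a => t ^ T.lv a * y a) = (t ^ e) ^ 2 * T.ln e y := by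
  rw [Tow.ln, Tow.ln, ← qq_smul]
  congr 1
  funext a
  have := aeval_scale (hT.hom a) t y
  rw [MvPolynomial.aeval_eq_eval, MvPolynomial.aeval_eq_eval] at this
  by_cases h : T.lv a = e
  · simp only [Pi.smul_apply, Tow.ps, this, h, if_true, smul_eq_mul, mul_sub]
  · simp [h]

theorem ok_low (hT : T.Ok s N) (hM : M ≠ 0) (hW : (M : ℝ) ^ 2 ≤ W) : (low T j W M).Ok (j - 1) N := by
  have h1 : (1 : ℝ) ≤ (M : ℝ) ^ 2 := by exact_mod_cast (one_le_sq_iff_one_le_abs M).2 (Int.one_le_abs hM)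
  have hG := posDef_bk hT.pd fun a => T.lv a < j
  have h2 : ∀ {R : Type} [CommRing R] (x : {a // T.lv a < j} → R),
      (fun a : {a // T.lv a < j} => ((M * T.el a : ℤ) : R)) ⬝ᵥ x =
        M * ((fun a => (T.el a : R)) ⬝ᵥ ez _ x) := fun x => by
    rw [dot_ez]
    simp [dotProduct, rs, mul_sum, mul_assoc]
  refine ⟨fun a => hT.pos a, fun a => Nat.le_sub_one_of_lt a.2,
    fun a => hom_aeval (hT.hom a) fun b => ?_, fun a b hb => ?_, hG.smul (by linarith),
    fun a b h => (congrArg (W * ·) (hT.blk a b h)).trans (mul_zero W),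
    fun a h => (congrArg (M * ·) (hT.el1 a h)).trans (mul_zero M), fun z hz h => ?_, fun x => ?_⟩
  · unfold ez
    split_ifs with h
    exacts [MvPolynomial.isWeightedHomogeneous_X ℝ (low T j W M).lv ⟨b, h⟩,
      MvPolynomial.isWeightedHomogeneous_zero _ _ _]
  · obtain ⟨i, h3, h4⟩ := MvPolynomial.mem_vars_bind₁ _ _ hb
    unfold ez at h4
    split_ifs at h4 with h
    · rw [MvPolynomial.vars_X, mem_singleton] at h4
      rw [h4]; exact hT.low a i h3
    · simp at h4
  · have h3 := hT.sep _ (ez_ne hz) ((mul_eq_zero.1 ((h2 z).symm.trans h)).resolve_left hM)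
    rw [toR_ez, qq_ez] at h3
    refine le_trans ?_ (qq_smul_mat _ W _).ge
    nlinarith
  · have h3 := hT.elN (ez _ x)
    have h4 := qq_nonneg hG.posSemidef x
    rw [qq_ez] at h3
    refine ((congrArg (· ^ 2) (h2 x)).trans_le ?_).trans
      (congrArg (N ^ 2 * ·) (qq_smul_mat _ W _)).ge
    beta_reduce
    rw [mul_pow, mul_left_comm]
    exact mul_le_mul hW h3 (sq_nonneg _) (by linarith)

theorem mor_low (hT : T.Ok s N) (hW : ∀ e, e < j → ((M : ℝ) ^ e) ^ 2 ≤ W) :
    Mor j (low T j W M) T (dla T j M) := by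
  refine ⟨fun a h => ?_, fun y hy e he => ?_, fun _ y => ?_⟩
  · rw [dla, ez, dif_pos h]
    exact (MvPolynomial.isWeightedHomogeneous_X ℤ (low T j W M).lv ⟨a, h⟩).C_mul _
  · have := hy e he
    rw [ln_low y he] at this
    rw [ap_dla, ln_scale hT]
    exact (mul_le_mul_of_nonneg_right (hW e he) (qq_nonneg hT.pd.posSemidef _)).trans this
  · have : ap (dla T j M) y = ez _ fun a => (M : ℝ) ^ T.lv a * y a := by
      rw [ap_dla]; funext a
      by_cases h : T.lv a < j <;> simp [ez, h]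
    rw [this, dot_ez]
    refine sum_congr rfl fun a _ => ?_
    change ((M * T.el a : ℤ) : ℝ) * y a = (T.el a : ℝ) * (_ * y a)
    by_cases h : T.lv a = 1
    · rw [h]; push_cast; ring
    · simp [hT.el1 a h]

theorem dm_low {e : ℕ} (he : e < j) : (low T j W M).dm e = T.dm e := by
  rw [← card_lv, ← card_lv]
  exact congrArg _ (Fintype.card_congr (Equiv.subtypeSubtypeEquivSubtype
    (p := fun a => T.lv a < j) (q := fun a => T.lv a = e) fun h => h ▸ he))

theorem yy_low (hT : T.Ok s N) (hW : 0 < W) {e : ℕ} (he : e < j) :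
    (low T j W M).yy N e = T.yy N e + T.dm e * (Real.log W / 2) := by
  have h1 : (bk (low T j W M).G fun a => (low T j W M).lv a = e).det =
      (W • bk T.G fun a => T.lv a = e).det := by
    rw [← det_submatrix_equiv_self (Equiv.subtypeSubtypeEquivSubtype
      (p := fun a => T.lv a < j) (q := fun a => T.lv a = e) fun h => h ▸ he)]
    rfl
  rw [Tow.yy, Tow.yy, h1, det_smul, Real.log_mul (by positivity) (posDef_bk hT.pd _).det_pos.ne',
    Real.log_pow, card_lv]
  ring

/-- the certificate -/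
theorem cert_of (hT : T.Ok s N) (hj : 1 ≤ j) {k : T.ι → ℤ} (h1 : ∀ a, T.lv a ≠ j → k a = 0)
    (h2 : ∃ w, k ⬝ᵥ w = 1) {H : ℝ} (h3 : ∀ x : T.ι → ℝ, (toR k ⬝ᵥ x) ^ 2 ≤ H * qq T.G x)
    (hM : M ≠ 0) (hW : ((M : ℝ) ^ j) ^ 2 ≤ W) {J : MvPolynomial {a // T.lv a < j} ℤ}
    (hJ : J.IsWeightedHomogeneous (fun a => T.lv a.1) j) {Y : ℝ} (hY : W ≤ Real.exp Y)
    (h4 : ∀ y : {a // T.lv a < j} → ℝ, (∀ e, e < j → W * T.ln e (ez _ y) ≤ 1) →
      |(M : ℝ) ^ (j - 1)| * |M * ∑ a, (k a : ℝ) * MvPolynomial.eval (ez _ y) (T.q a) -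
        MvPolynomial.aeval y J| ≤ 1) :
    Cert T N j H T.dm fun e => T.yy N e + T.dm e * Y := by
  have a1 : (1 : ℝ) ≤ (M : ℝ) ^ 2 := by exact_mod_cast (one_le_sq_iff_one_le_abs M).2 (Int.one_le_abs hM)
  have a2 : ∀ e, e ≤ j → ((M : ℝ) ^ e) ^ 2 ≤ W := fun e he => by
    refine le_trans ?_ hW
    rw [pow_right_comm, pow_right_comm _ j]
    exact pow_le_pow_right₀ a1 he
  have a3 : 1 ≤ W := by simpa using a2 0 (Nat.zero_le j)
  refine ⟨low T j W M, dla T j M, k, MvPolynomial.C (M ^ (j - 1)) * J,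
    ok_low hT hM (by simpa using a2 1 hj), mor_low hT fun e he => a2 e he.le,
    fun e he => ⟨(dm_low he).le, ?_⟩, h1, h2, h3, hJ.C_mul _, fun y hy => ?_⟩
  · rw [yy_low hT (by linarith) he]
    have := Real.log_nonneg a3
    have := (Real.log_le_iff_le_exp (by linarith)).2 hY
    exact add_le_add le_rfl (mul_le_mul_of_nonneg_left (by linarith) (Nat.cast_nonneg _))
  · refine le_trans (le_of_eq ?_) (h4 y fun e he => (ln_low y he).symm.trans_le (hy e he))
    rw [← abs_mul, map_mul, MvPolynomial.aeval_C, eq_intCast, mul_sub, ← mul_assoc, ← pow_succ,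
      Nat.sub_add_cancel hj, mul_sum, ap_dla]
    push_cast
    congr 2
    refine sum_congr rfl fun a _ => ?_
    by_cases h : T.lv a = j
    · have := aeval_scale (hT.hom a) (M : ℝ) (ez (fun b => T.lv b < j) y)
      rw [MvPolynomial.aeval_eq_eval, MvPolynomial.aeval_eq_eval] at this
      rw [this, h, mul_left_comm]
    · simp [h1 a h]

end

end Vale.Agent.P057TE
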