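import Vale.Agent.P057TE.Cert
import Vale.Agent.P057MA.Ext

/-!
Regularity at one more level, or a certificate.
-/

set_option linter.all false

open Matrix Finset
open scoped Real
open Vale.Agent.P267.H775 Vale.Agent.P057G Vale.Agent.P057PC Vale.Agent.P057TP Vale.Agent.P057MA

namespace Vale.Agent.P057TE

noncomputable section

variable {T : Tow} {s d : ℕ} {N : ℝ}

/-- the primitive part of a short frequency -/
theorem exists_prim (hT : T.Ok s N) {j : ℕ} {k : T.ι → ℤ} (hk : k ≠ 0)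
    (h1 : ∀ a, k a ≠ 0 → T.lv a = j) {H : ℝ} (hH : 0 ≤ H)
    (h2 : ∀ x : T.ι → ℝ, (∀ a, x a ≠ 0 → T.lv a = j) → (toR k ⬝ᵥ x) ^ 2 ≤ H * qq T.G x) :
    ∃ (g : ℤ) (k0 : T.ι → ℤ), g ≠ 0 ∧ k = g • k0 ∧ (∀ a, T.lv a ≠ j → k0 a = 0) ∧
      (∃ w, k0 ⬝ᵥ w = 1) ∧ (∀ x : T.ι → ℝ, (toR k0 ⬝ᵥ x) ^ 2 ≤ H * qq T.G x) ∧
      |(g : ℝ)| ≤ √H * ms (bk T.G fun a => T.lv a = j) fun _ => 0 := by
  obtain ⟨j0, g, k0, w, L, L', -, hg, rfl, hs⟩ := exists_sh (fun _ => ()) hk fun _ _ => rfl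
  have h3 : ∀ a, T.lv a ≠ j → k0 a = 0 := fun a ha => by
    by_contra h; exact ha (h1 a (mul_ne_zero hg h))
  have h4 : ez _ (rs (fun a => T.lv a = j) k0) = k0 := funext fun a => by
    by_cases h : T.lv a = j
    exacts [dif_pos h, (dif_neg h).trans (h3 a h).symm]
  have hG := posDef_bk hT.pd fun a => T.lv a = j
  have hg1 : (1 : ℝ) ≤ (g : ℝ) ^ 2 := by
    exact_mod_cast (one_le_sq_iff_one_le_abs g).2 (Int.one_le_abs hg)
  have h5 : ∀ u, ((g : ℝ) * (toR (rs (fun a => T.lv a = j) k0) ⬝ᵥ u)) ^ 2 ≤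
      H * qq (bk T.G fun a => T.lv a = j) u := fun u => by
    have := h2 (ez _ u) fun a ha => by_contra fun h => ha (dif_neg h)
    rw [qq_ez, dot_ez] at this
    refine le_trans (le_of_eq ?_) this
    simp [dotProduct, rs, mul_sum, mul_assoc]
  refine ⟨g, k0, hg, rfl, h3, ⟨w, hs.ka⟩, fun x => ?_, ?_⟩
  · have h6 := h5 (rs _ x)
    have h7 := qq_rs_le hT.pd (P := fun a => T.lv a = j)
      (fun a b ha hb => hT.blk a b fun h => hb (h.symm.trans ha)) x
    rw [← h4, toR_ez, dotProduct_comm, dot_ez, dotProduct_comm]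
    nlinarith [sq_nonneg (toR (rs (fun a => T.lv a = j) k0) ⬝ᵥ rs _ x)]
  · have h6 := one_le_mul_th hG.inv (k := rs _ k0) fun h => hs.ne (by
      rw [← h4, h]; funext a; simp [ez])
    have h7 := h5 ((bk T.G fun a => T.lv a = j)⁻¹ *ᵥ toR (rs _ k0))
    rw [qq_inv hG] at h7
    change (g * qq _ _) ^ 2 ≤ _ at h7
    rw [ms_zero hG]
    set t := qq (bk T.G fun a => T.lv a = j)⁻¹ (toR (rs _ k0))
    have h8 : 0 ≤ t := qq_nonneg hG.inv.posSemidef _
    have h9 : |(g : ℝ)| * √t ≤ √H := by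
      rw [← Real.sqrt_sq_eq_abs, ← Real.sqrt_mul (sq_nonneg _)]
      refine Real.sqrt_le_sqrt ?_
      rcases h8.eq_or_lt with h | h
      · rw [← h, mul_zero]; exact hH
      · exact le_of_mul_le_mul_right (by nlinarith) h
    refine le_trans ?_ (mul_le_mul_of_nonneg_right h9 (th_nonneg _ _))
    rw [mul_assoc]
    exact le_mul_of_one_le_right (abs_nonneg _) h6

theorem fact_le {j : ℕ} {Z : ℝ} (h : (j : ℝ) ≤ Z) : (j.factorial : ℝ) ≤ Real.exp (Z ^ 2) := by
  have h0 : (0 : ℝ) ≤ j := Nat.cast_nonneg j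
  refine (Nat.cast_le.2 (Nat.factorial_le_pow j)).trans ?_
  rw [Nat.cast_pow]
  exact pow_le_exp h0 (by linarith [Real.add_one_le_exp Z]) (h0.trans h) h (sq Z).ge

/-- a biased frequency gives a certificate -/
theorem cert_of_bias (hT : T.Ok s N) {c n : ℕ} (hB : BP (Fin (d + 1)) c) {Z Λ η lam H H' Y : ℝ}
    (hZ : 12 ≤ Z) (hd : ((d + 1 : ℕ) : ℝ) ≤ Z) (hc : (c : ℝ) ≤ Z) (hLF : T.tw.LF d n Λ η)
    (hn : (d + 1) * c ≤ n) (hΛ : Real.exp (Z ^ 3) ≤ Λ) (hη : η ≤ Real.exp (-Z ^ 3)) (l0 : 0 < lam)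
    (l1 : lam ≤ Real.exp Z) (H0 : 0 ≤ H) (H1 : H ≤ Real.exp Z) (H2 : H ≤ H') (hY : Z ^ 4 ≤ Y)
    (hD : (Fintype.card T.ι * 2 ^ (d + 1) : ℝ) ≤ Real.exp Z)
    (hm : ms (bk T.G fun a => T.lv a = d + 1) (fun _ => 0) ≤ Real.exp Z)
    (hR : ¬ T.tw.Reg (d + 1) lam H (Real.exp (-Z))) :
    Cert T N (d + 1) H' T.dm fun e => T.yy N e + T.dm e * Y := by
  simp only [Tw.Reg, not_forall, not_le] at hR
  obtain ⟨σ, c', k, hk, hs, hb⟩ := hR
  obtain ⟨z2, z3, z4, -⟩ := pow_chain (by linarith : 10 ≤ Z)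
  have hal : ∀ a, T.tw.al a (univ.val.map σ) ↔ T.lv a = d + 1 := fun a => by
    simp [Tow.tw, eq_comm]
  obtain ⟨g, k0, g0, rfl, k1, k2, k3, g1⟩ := exists_prim hT hk (fun a h => (hal a).1 (hs.1 a h)) H0
    fun x hx => hs.2 x fun a h => (hal a).2 (hx a h)
  have hu := cu_el T σ
  set cd := fun l : EL T.tw σ => l.1.1
  set fc := fun l : EL T.tw σ => l.1.2
  have hlt : ∀ l, T.lv (cd l) < d + 1 := fun l => by simpa using hu.lt l
  set S := sys T cd fc 0 lam
  have hS : S.Ok := hu.sys_ok hT 0 l0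
  have hC : S.Cen := hu.sys_cen hT lam
  have hθ : ∀ v, Lin (S.st v) (topPh T.tw σ (g • k0)) := fun v =>
    Lin.sum univ _ fun a _ => lin_cv lam a (mem_univ v)
  have e1 : (Real.exp Z / Real.exp (-Z)) ^ c ≤ Real.exp (2 * Z ^ 2) :=
    pow_le_exp (a := 2 * Z) (by positivity) (by rw [← Real.exp_sub]; ring_nf; rfl) (by linarith) hc
      (by linarith)
  obtain ⟨m, m0, m1, I, i1, i2, i3⟩ := hB _ S hS hC univ univ _ (Real.exp Z) (Real.exp (-Z))
    (Real.exp (2 * Z ^ 2)) η c (cls_univ S) (fun _ _ => subset_univ _) univ_nonempty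
    ⟨on_univ _, fun v _ => hθ v⟩ (Real.exp_pos _)
    ((exp_quarter (Z := 0) (by linarith)).trans (by norm_num))
    (by linarith [Real.add_one_le_exp Z])
    (le_trans (by simpa using (Nat.cast_le (α := ℝ)).2 hu.card_le) hD) e1
    (hη.trans (by
      rw [← Real.exp_sub, ← Real.exp_nat_mul]
      exact Real.exp_le_exp.2 (by nlinarith))) le_rfl
    (hu.smo hT hLF (fun l => Nat.le_of_lt_succ (hlt l)) (by simpa using hn) l0 (Real.exp_pos _)
      ((mul_le_exp l0.le (pow_le_exp (n := 2) (Real.exp_pos _).le le_rfl (by positivity) le_rfl le_rfl)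
        l1).trans ((Real.exp_le_exp.2 (by push_cast; linarith)).trans hΛ)))
    ((mul_le_mul_of_nonneg_right hb.le (vl_pos hS.pd _).le).trans (hu.bias hT c' l0 hθ))
  obtain ⟨I', hI⟩ := exists_poly hC.ne univ univ I (fun _ _ => subset_univ _) i1.af i2
  obtain ⟨J, hJ⟩ : ∃ J : MvPolynomial {a // T.lv a < d + 1} ℤ, ∀ y : {a // T.lv a < d + 1} → ℝ,
      MvPolynomial.aeval y J = I (dgl cd fc (ez _ y)) := by
    refine ⟨MvPolynomial.aeval (fun l => MvPolynomial.C ((fc l).card.factorial : ℤ) *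
      MvPolynomial.X ⟨cd l, hlt l⟩) I', fun y => ?_⟩
    rw [hI, MvPolynomial.aeval_eq_bind₁, MvPolynomial.aeval_bind₁]
    congr 2
    funext l
    simp [dgl, ez, hlt l]
  have f1 := fact_le hd
  have M1 : |((m * (d + 1).factorial * g : ℤ) : ℝ)| ≤ Real.exp (4 * Z ^ 2) := by
    have a1 : √H ≤ Real.exp Z := Real.sqrt_le_iff.2 ⟨(Real.exp_pos _).le, H1.trans (by
      have := Real.add_one_le_exp Z
      nlinarith)⟩
    rw [Int.cast_mul, abs_mul, Int.cast_mul, Int.cast_natCast, Int.cast_natCast,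
      abs_of_nonneg (by positivity)]
    exact (mul_le_exp (abs_nonneg _) (mul_le_exp (Nat.cast_nonneg _) (m1.trans e1) f1)
      (g1.trans (mul_le_exp (ms_nonneg _ _) a1 hm))).trans (Real.exp_le_exp.2 (by linarith))
  have M2 : ∀ i : ℕ, i ≤ d + 1 → |((m * (d + 1).factorial * g : ℤ) : ℝ) ^ i| ≤
      Real.exp (4 * Z ^ 3) := fun i hi => by
    rw [abs_pow]
    exact pow_le_exp (abs_nonneg _) M1 (by positivity) ((Nat.cast_le.2 hi).trans hd) (by linarith)
  refine cert_of hT (by omega) k1 k2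
    (fun x => (k3 x).trans (mul_le_mul_of_nonneg_right H2 (qq_nonneg hT.pd.posSemidef x)))
    (M := m * (d + 1).factorial * g) (W := Real.exp (Z ^ 4)) (J := J)
    (mul_ne_zero (mul_ne_zero (by omega) (Int.natCast_ne_zero.2 (Nat.factorial_ne_zero _))) g0) ?_
    (hom_of_scale fun y => ?_) (Real.exp_le_exp.2 hY) fun y hy => ?_
  · rw [← sq_abs]
    exact pow_le_exp (abs_nonneg _) (M2 _ le_rfl) (by positivity) le_rfl (by push_cast; linarith)
  · rw [hJ, hJ]
    have := lin_scl (S := S) i1.lin 2 (dgl cd fc (ez _ y))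
    rw [card_univ, Fintype.card_fin] at this
    rw [← this]
    congr 1
    funext l
    have h1 : (S.fc l ∩ univ).card = T.lv (cd l) := by rw [inter_univ]; exact hu.card l
    simp only [scl, h1, dgl, ez, dif_pos (hlt l)]
    ring
  · have hy0 : ∀ a, Fintype.card (Fin (d + 1)) ≤ T.lv a → ez (fun b => T.lv b < d + 1) y a = 0 :=
      fun a h => dif_neg (by simpa using h)
    have h1 := hu.ln2 hT hy0 l0.le (Real.exp_pos (-Z ^ 4)).le fun e he => by
      rw [Real.exp_neg, ← one_div, le_div_iff₀' (Real.exp_pos _)]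
      exact hy e (by simpa using he)
    rw [Fintype.card_fin] at h1
    have h2 := (i3.mono e1).small hS hC (v := 0)
      (by simpa only [one_mul, neg_mul, ← sub_eq_add_neg] using lin_comb (hθ 0) (i1.lin 0 (mem_univ _)) m (-1))
      (Real.exp_pos (-(5 * Z ^ 3))) (Real.exp_le_one_iff.2 (by linarith)) (h1.trans (by
        refine le_trans (le_of_eq (mul_comm _ _)) ((mul_le_exp l0.le (mul_le_exp (by positivity)
          (pow_le_exp (b := Z) zero_le_two two_le_exp zero_le_one hd (by linarith))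
          (mul_le_exp (Real.exp_pos _).le (pow_le_exp (n := 2) (Nat.cast_nonneg _) f1 (by positivity)
            le_rfl le_rfl) le_rfl)) l1).trans ?_)
        rw [← Real.exp_nat_mul]
        exact Real.exp_le_exp.2 (by push_cast; nlinarith)))
    have h3 : topPh T.tw σ (g • k0) (dgl cd fc (ez _ y)) = (d + 1).factorial * g *
        ∑ a, (k0 a : ℝ) * MvPolynomial.eval (ez _ y) (T.q a) := by
      rw [topPh, mul_sum]
      refine sum_congr rfl fun a _ => ?_
      by_cases h : T.lv a = d + 1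
      · have := hu.cv hT hy0 (a := a) (F := univ) (by simp [h])
        rw [card_univ, Fintype.card_fin] at this
        refine (congrArg (_ * ·) this).trans ?_
        simp only [Pi.smul_apply, smul_eq_mul, Int.cast_mul]
        ring
      · simp [k1 a h]
    beta_reduce at h2
    rw [h3, ← mul_assoc, ← mul_assoc, ← Real.exp_add] at h2
    rw [hJ]
    refine (mul_le_exp (abs_nonneg _) (M2 _ (by omega)) (le_trans (le_of_eq ?_) h2)).trans
      (Real.exp_le_one_iff.2 (by linarith))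
    push_cast
    rfl

theorem ms_smul {κ : Type*} [Fintype κ] [DecidableEq κ] {G : Matrix κ κ ℝ} (hG : G.PosDef) {c : ℝ}
    (hc : 1 ≤ c) : ms (c • G) (fun _ => 0) ≤ c ^ Fintype.card κ * ms G fun _ => 0 := by
  have h0 : 0 < c := by linarith
  rw [ms_zero hG, ms_zero (hG.smul h0), inv_smul_mat h0.ne' hG]
  refine (th_smul_le (inv_pos.2 h0) (inv_le_one_of_one_le₀ hc) hG.inv 0).trans
    (mul_le_mul_of_nonneg_right (pow_le_pow_left₀ (by positivity) ?_ _) (th_nonneg _ _))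
  rw [Real.sqrt_inv, inv_inv]
  exact Real.sqrt_le_iff.2 ⟨h0.le, by nlinarith⟩

/-- no biased frequency: one more level -/
theorem lf_of_reg (hT : T.Ok s N) {n : ℕ} {X A E Z : ℝ} (X1 : 24 ≤ X) (A1 : 0 ≤ A) (XA : A ≤ X)
    (js : d + 1 ≤ s) (ds : ((d + 1 : ℕ) : ℝ) ≤ X) (nf : (n : ℝ) ≤ X) (hd : T.dm (d + 1) ≤ X)
    (hm : ms (bk T.G fun a => T.lv a = d + 1) (fun _ => 0) ≤ Real.exp (5 * X ^ 2))
    (x1 : X ≤ X ^ (s + 3)) (x2 : 24 * X ^ (s + 3) ≤ E) (x3 : 2 ^ (d + 1) * E + 2 ≤ Z)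
    (x4 : 24 * X ≤ Z)
    (hLF : T.tw.LF d (n + (d + 1) + 1) (3 * (4 * 6 ^ (d + 1) * Real.exp A)) (Real.exp (-Z ^ 3)))
    (hR : T.tw.Reg (d + 1) (4 * 6 ^ (d + 1) * Real.exp A) (2 * Real.exp A * E) (Real.exp (-Z))) :
    T.tw.LF (d + 1) n (Real.exp A) (Real.exp (-A)) := by
  obtain ⟨z2, z3, -⟩ := pow_chain (by linarith : 10 ≤ Z)
  obtain ⟨y2, y3, -⟩ := pow_chain (by linarith : 10 ≤ X)
  have h1 := Tw.LF.step (N := n) (B := Real.exp (X ^ 3)) (γ := Real.exp (-E)) (ok_tw hT)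
    (by positivity) (Real.exp_le_one_iff.2 (by linarith)) hLF hR (Real.exp_pos A)
    (fun t ht => ?_) (Real.one_le_exp (by positivity)) le_rfl le_rfl (Real.exp_pos _).le ?_
  · refine Tw.LF.mono h1 (ok_tw hT) le_rfl le_rfl le_rfl ?_
    have a1 : Real.exp (X ^ 3) ^ n ^ (d + 1) ≤ Real.exp (X ^ (s + 3)) :=
      pow_le_exp (t := X ^ s) (Real.exp_pos _).le le_rfl (by positivity)
        (by
          rw [Nat.cast_pow]
          exact (pow_le_pow_left₀ (Nat.cast_nonneg _) nf _).trans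
            (pow_le_pow_right₀ (by linarith) js)) (pow_add _ _ _).ge
    have a2 : Real.exp (-(π * (2 * Real.exp A * E / (2 * Real.exp A)) / 2)) ≤ Real.exp (-E) := by
      rw [mul_div_cancel_left₀ _ (by positivity)]
      have := mul_le_mul_of_nonneg_right Real.two_le_pi (by linarith : 0 ≤ E)
      exact Real.exp_le_exp.2 (by linarith)
    have a3 := mul_le_mul a1 (add_le_add (le_refl (2 * Real.exp (-E)))
      (mul_le_mul_of_nonneg_left a2 zero_le_two)) (by positivity) (Real.exp_pos _).le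
    have a4 := exp_quarter (x := X ^ (s + 3) + -E) (Z := A + 2) (by linarith)
    have a5 := exp_quarter (x := -(A + 2)) le_rfl
    have a6 := exp_quarter (x := -Z ^ 3) (Z := A) (by linarith)
    rw [Real.exp_add] at a4
    linarith [Real.exp_pos (-A)]
  · classical
    have hG := posDef_bk hT.pd fun a => T.lv a = d + 1
    refine le_trans (le_of_eq (ms_equiv (Equiv.subtypeEquivRight
      (q := fun a => T.lv a = d + 1) fun a => ?_) (G := (4 * Real.exp A) • bk T.G _)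
      (fun _ _ => rfl) fun _ _ => rfl)) ((ms_smul hG (by linarith [Real.add_one_le_exp A])).trans ?_)
    · exact ⟨fun h => (ht.symm.trans h).symm, fun h => ht.trans h.symm⟩
    · have a1 : X * (3 + A) ≤ X * (2 * X) := mul_le_mul_of_nonneg_left (by linarith) (by linarith)
      exact (mul_le_exp (ms_nonneg _ _) (pow_le_exp (t := X) (by positivity)
        (mul_le_exp (Real.exp_pos _).le (by linarith [Real.add_one_le_exp 3] : 4 ≤ Real.exp 3) le_rfl)
        (by linarith) (by rwa [card_lv]) a1) hm).trans (Real.exp_le_exp.2 (by linarith))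
  · have a1 : √(Real.exp (-Z ^ 3)) ≤ Real.exp (-(3 * Z)) :=
      Real.sqrt_le_iff.2 ⟨(Real.exp_pos _).le, by
        rw [← Real.exp_nat_mul]; exact Real.exp_le_exp.2 (by push_cast; linarith)⟩
    have a2 : ((n + (d + 1) + 1 : ℕ) : ℝ) ≤ Real.exp Z := by
      push_cast at ds ⊢; linarith [Real.add_one_le_exp Z]
    have a3 := mul_le_exp (by positivity) a2 (mul_le_exp (Real.sqrt_nonneg _)
      (by linarith [Real.add_one_le_exp Z] : 3 ≤ Real.exp Z) a1)
    have a4 := exp_quarter (x := -Z) (Z := 2 ^ (d + 1) * E) (by linarith)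
    rw [show Z + (Z + -(3 * Z)) = -Z by ring] at a3
    rw [← Real.exp_nat_mul, Nat.cast_pow, Nat.cast_ofNat, mul_neg]
    linarith [Real.exp_pos (-(2 ^ (d + 1) * E))]

theorem test_num {s c : ℕ} {A X : ℝ} (hc : 2 ≤ c) (hA : 4 * ((s : ℝ) + 6) ≤ A) (h0 : 0 ≤ X)
    (hX : X ≤ 3 * Real.exp A) : 2 * Real.exp A * X ^ (s + 4) ≤ Real.exp (A ^ c) := by
  have s0 : (0 : ℝ) ≤ s := Nat.cast_nonneg s
  have a1 := hX.trans (mul_le_exp (Real.exp_pos A).le
    (by linarith [Real.add_one_le_exp 2] : 3 ≤ Real.exp 2) le_rfl)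
  have a2 : A ^ 2 ≤ A ^ c := pow_le_pow_right₀ (by linarith) hc
  refine (mul_le_exp (by positivity) (mul_le_exp (Real.exp_pos _).le two_le_exp le_rfl)
    (pow_le_exp h0 a1 (by linarith) le_rfl le_rfl)).trans (Real.exp_le_exp.2 ?_)
  push_cast
  nlinarith

theorem six_le {j : ℕ} {X A : ℝ} (h : (j : ℝ) ≤ X) :
    4 * 6 ^ j * Real.exp A ≤ Real.exp (2 + 3 * X + A) := by
  have a1 : (4 : ℝ) ≤ Real.exp 2 := by
    rw [show (2 : ℝ) = 1 + 1 by norm_num, Real.exp_add]; nlinarith [two_le_exp]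
  have a2 : (6 : ℝ) ≤ Real.exp 3 := by
    rw [show (3 : ℝ) = 2 + 1 by norm_num, Real.exp_add]; nlinarith [two_le_exp]
  exact mul_le_exp (Real.exp_pos _).le (mul_le_exp (by positivity) a1
    (pow_le_exp (by norm_num) a2 (by norm_num) h (by linarith))) le_rfl

theorem test (s : ℕ) : TEST s := by
  obtain ⟨c0, -, hB⟩ := exists_bp s
  obtain ⟨c, c2, c1⟩ : ∃ c : ℕ, (s + 6) * 4 ≤ c ∧ 4 * ((s : ℝ) + 6) + 2 ^ s + c0 ≤ c :=
    ⟨(s + 6) * 4 + (2 ^ s + c0), Nat.le_add_right _ _, by push_cast; linarith⟩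
  refine ⟨c, fun N P T j n A hP hT hx j1 js hA n1 nA hLF => ?_⟩
  obtain ⟨d, rfl⟩ : ∃ d, j = d + 1 := ⟨j - 1, by omega⟩
  have s0 : (0 : ℝ) ≤ s := Nat.cast_nonneg s
  replace c1 := c1.trans ((hP.big (s + 1)).trans hA)
  have p0 : (0 : ℝ) < 2 ^ s := by positivity
  have q0 : (0 : ℝ) ≤ c0 := Nat.cast_nonneg c0
  have P0 : 0 ≤ P (d + 1) := (Nat.cast_nonneg c).trans (hP.big _)
  have P1 : ∀ e, P e ≤ Real.exp A := fun e =>
    (antitone_nat_of_succ_le hP.anti (Nat.zero_le e)).trans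
      ((Real.le_exp_log _).trans (Real.exp_le_exp.2 (hP.lg.trans hA)))
  have n2 : n ≤ Real.exp A := (Real.le_exp_log _).trans (Real.exp_le_exp.2 nA)
  have ds : ((d + 1 : ℕ) : ℝ) ≤ s := Nat.cast_le.2 js
  obtain ⟨d1, d2⟩ := hx (d + 1)
  have nf := Nat.floor_le (by linarith : 0 ≤ n)
  have hD := card_tow hT fun e => (hx e).1.trans (P1 e)
  have XE : n + A + P (d + 1) ≤ 3 * Real.exp A := by linarith [P1 (d + 1), Real.add_one_le_exp A]
  have XA : A ≤ n + A + P (d + 1) := by linarith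
  replace d1 : T.dm (d + 1) + 1 ≤ n + A + P (d + 1) := by linarith
  replace d2 : T.yy N (d + 1) ≤ n + A + P (d + 1) := by linarith
  replace nf : (⌊n⌋₊ : ℝ) ≤ n + A + P (d + 1) := by linarith
  generalize n + A + P (d + 1) = X at *
  have X1 : 24 ≤ X := by linarith
  have mo : ∀ {a b : ℕ}, a ≤ b → X ^ a ≤ X ^ b := fun h => pow_le_pow_right₀ (by linarith) h
  have st : ∀ a : ℕ, 24 * X ^ a ≤ X ^ (a + 1) := fun a => by
    rw [pow_succ']; exact mul_le_mul_of_nonneg_right X1 (by positivity)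
  have x0 : 24 * X ≤ X ^ 2 := by simpa using st 1
  have x1 : X ≤ X ^ (s + 3) := by simpa using mo (by omega : 1 ≤ s + 3)
  have x2 : 24 * X ^ (s + 3) ≤ X ^ (s + 4) := st (s + 3)
  have x3 : 24 * X ^ (s + 4) ≤ X ^ (s + 5) := st (s + 4)
  have x4 : 24 * X ^ (s + 5) ≤ X ^ (s + 6) := st (s + 5)
  have x5 : 2 ^ (d + 1) * X ^ (s + 4) ≤ X ^ (s + 5) := by
    rw [pow_succ' X (s + 4)]
    exact mul_le_mul_of_nonneg_right ((pow_le_pow_right₀ one_le_two js).trans (by linarith))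
      (by positivity)
  have x6 := (st 2).trans (mo (by omega : 3 ≤ s + 3))
  have Zc : (X ^ (s + 6)) ^ 4 ≤ X ^ c := by rw [← pow_mul]; exact mo c2
  have hH := test_num (s := s) (by omega : 2 ≤ c) (by linarith) (by linarith) XE
  have hm : ms (bk T.G fun a => T.lv a = d + 1) (fun _ => 0) ≤ Real.exp (5 * X ^ 2) := by
    have : (T.dm (d + 1) + 1) ^ 2 ≤ X ^ 2 :=
      pow_le_pow_left₀ (add_nonneg (Nat.cast_nonneg _) zero_le_one) d1 2
    exact (ms_blk hT hP.one _).trans (Real.exp_le_exp.2 (by linarith))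
  have l1 := six_le (A := A) (ds.trans (by linarith : (s : ℝ) ≤ X))
  have cc := mul_le_mul (ds.trans (by linarith : (s : ℝ) ≤ X)) (by linarith : (c0 : ℝ) ≤ X) q0
    (by linarith)
  rw [← sq] at cc
  generalize X ^ (s + 4) = E at *
  generalize X ^ (s + 6) = Z at *
  obtain ⟨z2, z3, z4, -⟩ := pow_chain (by linarith : 10 ≤ Z)
  by_cases hR : T.tw.Reg (d + 1) (4 * 6 ^ (d + 1) * Real.exp A) (2 * Real.exp A * E) (Real.exp (-Z))
  · exact Or.inl (lf_of_reg hT X1 (by linarith) XA js (by linarith) nf (by linarith) hm x1 x2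
      (by linarith) (by linarith) (Tw.LF.mono hLF (ok_tw hT) le_rfl
        (Nat.le_floor (by push_cast at ds ⊢; linarith))
        ((mul_le_exp (by positivity) (by linarith [Real.add_one_le_exp 2] : 3 ≤ Real.exp 2) l1).trans
          (Real.exp_le_exp.2 (by linarith))) (Real.exp_le_exp.2 (by linarith))) hR)
  · refine Or.inr (cert_of_bias hT (hB _ (by simpa using js)) (by linarith) (by linarith)
      (by linarith) hLF (Nat.le_floor (by rw [Nat.cast_mul]; linarith))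
      (Real.exp_le_exp.2 (by linarith)) (Real.exp_le_exp.2 (by linarith)) (by positivity)
      (l1.trans (Real.exp_le_exp.2 (by linarith)))
      (mul_nonneg (by positivity) (by linarith)) ?_ hH Zc ?_
      (hm.trans (Real.exp_le_exp.2 (by linarith))) hR)
    · exact (mul_le_exp (by linarith) (mul_le_exp (Real.exp_pos _).le two_le_exp le_rfl)
        (by linarith [Real.add_one_le_exp E] : E ≤ Real.exp E)).trans (Real.exp_le_exp.2 (by linarith))
    · exact (mul_le_exp (by positivity) (hD.trans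
        (mul_le_exp (Real.exp_pos _).le (Real.add_one_le_exp s) le_rfl))
        (pow_le_exp zero_le_two two_le_exp zero_le_one ds le_rfl)).trans
        (Real.exp_le_exp.2 (by linarith))

end

end Vale.Agent.P057TE
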