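import Vale.Agent.P057TE.Thb
import Vale.Agent.P057PC.Chain
import Vale.Agent.P057ST.Sb
import Vale.Agent.P057MA.Mor

/-!
Free squarefree configurations as multi-affine systems.
-/

set_option linter.all false

open Matrix Finset
open Vale.Agent.P267.H775 Vale.Agent.P057G Vale.Agent.P057PC Vale.Agent.P057TP Vale.Agent.P057MA

namespace Vale.Agent.P057TE

noncomputable section

section alg

variable {ι M : Type} [AddCommMonoid M]

theorem sup_top (u : Alg M) : P057PC.Sup (fun _ => True) u := fun _ _ => trivial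

/-- polynomials are affine on an ideal modulo its square -/
theorem aff_eval {I J : M → Prop} (hI : ∀ m m', I m → I (m + m')) (hJ : ∀ m m', J m → J (m + m'))
    (hIJ : ∀ m m', I m → I m' → J (m + m')) (u w w' : ι → Alg M) (α β : Alg M)
    (hw : ∀ a, P057PC.Sup I (w a)) (hw' : ∀ a, P057PC.Sup I (w' a)) (Q : MvPolynomial ι (Alg M)) :
    P057PC.Sup J (MvPolynomial.eval (fun a => u a + (α * w a + β * w' a)) Q - MvPolynomial.eval u Q -
      α * (MvPolynomial.eval (fun a => u a + w a) Q - MvPolynomial.eval u Q) -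
      β * (MvPolynomial.eval (fun a => u a + w' a) Q - MvPolynomial.eval u Q)) := by
  have m1 : ∀ {x : Alg M} (y : Alg M), P057PC.Sup I x → P057PC.Sup I (x * y) :=
    fun y h => h.mul (sup_top y) fun m m' h _ => hI m m' h
  have m2 : ∀ {x : Alg M} (y : Alg M), P057PC.Sup J x → P057PC.Sup J (x * y) :=
    fun y h => h.mul (sup_top y) fun m m' h _ => hJ m m' h
  induction Q using MvPolynomial.induction_on with
  | C a => simpa using P057PC.Sup.zero J
  | add p q hp hq =>
    simp only [map_add]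
    convert hp.add hq using 1; ring
  | mul_X p a hp =>
    have h1 := P057PC.Sup.eval_sub hI (x := fun a => u a + (α * w a + β * w' a))
      (x' := fun a => u a + w a) (fun a => by
        convert (m1 (α - 1) (hw a)).add (m1 β (hw' a)) using 1; ring) p
    have h2 := P057PC.Sup.eval_sub hI (x := fun a => u a + (α * w a + β * w' a))
      (x' := fun a => u a + w' a) (fun a => by
        convert (m1 α (hw a)).add (m1 (β - 1) (hw' a)) using 1; ring) p
    simp only [map_mul, MvPolynomial.eval_X]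
    convert ((m2 (u a) hp).add (m2 α (h1.mul (hw a) hIJ))).add (m2 β (h2.mul (hw' a) hIJ)) using 1
    ring

end alg

variable {ι V L : Type}

/-- the configuration with squarefree monomials in free generators -/
def fr (cd : L → ι) (fc : L → Finset V) (c : L → ℝ) : Cf ι Unit (Multiset V) V L where
  dg := Multiset.cardHom
  y t := {t}
  cl _ := ()
  cd := cd
  mo l := (fc l).val
  R _ := 0
  ce := c

/-- labels closed under passage to subfaces -/
structure Fr (lv : ι → ℕ) (cd : L → ι) (fc : L → Finset V) : Prop where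
  inj : ∀ l l', cd l = cd l' → fc l = fc l' → l = l'
  card : ∀ l, (fc l).card = lv (cd l)
  clo : ∀ l F a, F ⊆ fc l → F.card = lv a → ∃ l', cd l' = a ∧ fc l' = F

variable {T : Tow} {cd : L → T.ι} {fc : L → Finset V} {c : L → ℝ} {s : ℕ} {N : ℝ}

theorem ok_tw (h : T.Ok s N) : T.tw.Ok := ⟨h.pos, h.low, h.pd, fun _ _ h => h⟩

theorem ys_fr (s : Multiset V) : (fr cd fc c).ys s = s := Multiset.sum_map_singleton s

theorem Fr.ok (h : Fr T.lv cd fc) (c : L → ℝ) : (fr cd fc c).Ok T.tw := by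
  refine ⟨fun _ => rfl, fun m _ => ⟨m, by rw [ys_fr]⟩,
    fun l l' h1 h2 => h.inj l l' h1 (Finset.val_injective h2), fun l => ⟨_, (ys_fr _).symm⟩,
    fun l s hs => ?_, fun l s m a hs ha => ?_, fun a j hj => by simp [fr] at hj,
    fun a β m hm => by simp [fr] at hm⟩
  · rw [ys_fr] at hs
    change Multiset.card _ = _
    rw [Multiset.card_map, ← hs]; exact h.card l
  · rw [ys_fr] at hs ⊢
    have h1 : s ≤ (fc l).val := (Multiset.le_add_right s m).trans (le_of_eq hs.symm)
    obtain ⟨l', h2, h3⟩ := h.clo l ⟨s, Multiset.nodup_of_le h1 (fc l).nodup⟩ a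
      (fun v hv => Multiset.mem_of_le h1 hv) ((Multiset.card_map _ s).symm.trans ha)
    exact ⟨l', h2, congrArg Finset.val h3⟩

variable [Fintype L] [DecidableEq L] [DecidableEq V]

/-- the multi-affine system of a free configuration -/
def sys (T : Tow) (cd : L → T.ι) (fc : L → Finset V) (c : L → ℝ) (lam : ℝ) : MS V L :=
  ⟨fc, fun l => T.lv (cd l), lam • (fr cd fc c).Gam T.tw, (fr cd fc c).pr T.tw⟩

/-- a coefficient of the value of a polynomial of the tower -/
def cv (T : Tow) (cd : L → T.ι) (fc : L → Finset V) (a : T.ι) (F : Finset V) (x : L → ℝ) : ℝ :=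
  ((fr cd fc 0).val T.tw x a).coeff F.val

theorem sys_p (lam : ℝ) (x : L → ℝ) (l : L) :
    (sys T cd fc c lam).p x l = cv T cd fc (cd l) (fc l) x + c l := rfl

theorem pt_lin (α β : ℝ) (x x' : L → ℝ) (a : T.ι) : (fr cd fc c).pt (α • x + β • x') a =
    algebraMap ℝ _ α * (fr cd fc c).pt x a + algebraMap ℝ _ β * (fr cd fc c).pt x' a := by
  simp only [Cf.pt, mul_sum, ← sum_add_distrib]
  refine sum_congr rfl fun l _ => ?_
  split_ifs
  · simp [AddMonoidAlgebra.single_add, AddMonoidAlgebra.single_mul_single]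
  · simp

theorem aff_cv (lam : ℝ) (v : V) (a : T.ι) (F : Finset V) :
    Aff ((sys T cd fc c lam).st v) (cv T cd fc a F) := by
  intro y
  set r := (sys T cd fc c lam).st v
  set C := fr cd fc (0 : L → ℝ)
  have e : ∀ x, C.pt (mix r x y) = fun b => C.pt (mix r 0 y) b + C.pt (mix r x 0) b := fun x => by
    funext b
    have h1 : mix r x y = (1 : ℝ) • mix r 0 y + (1 : ℝ) • mix r x 0 := by
      funext i; by_cases h : i ∈ r <;> simp [mix, h]
    rw [h1, pt_lin, map_one, one_mul, one_mul]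
  have hs : ∀ x b, P057PC.Sup (fun m => v ∈ m) (C.pt (mix r x 0) b) := fun x =>
    C.sup_pt fun l hl => (sys T cd fc c lam).mem_st.1 (by_contra fun h => hl (mix_neg _ _ h))
  have key : ∀ (α β : ℝ) x x', cv T cd fc a F (mix r (α • x + β • x') y) - cv T cd fc a F (mix r 0 y) =
      α * (cv T cd fc a F (mix r x y) - cv T cd fc a F (mix r 0 y)) +
        β * (cv T cd fc a F (mix r x' y) - cv T cd fc a F (mix r 0 y)) := by
    intro α β x x'
    have h1 := (aff_eval (I := fun m => v ∈ m) (J := fun m => 2 ≤ m.count v)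
      (fun _ _ h => Multiset.mem_add.2 (Or.inl h))
      (fun _ _ h => by rw [Multiset.count_add]; omega)
      (fun _ _ h h' => by
        have := Multiset.one_le_count_iff_mem.2 h
        have := Multiset.one_le_count_iff_mem.2 h'
        rw [Multiset.count_add]; omega)
      (C.pt (mix r 0 y)) _ _ (algebraMap ℝ _ α) (algebraMap ℝ _ β) (hs x) (hs x')
      (MvPolynomial.map (algebraMap ℝ _) (T.tw.q a) + C.R a)).coeff (m := F.val) (by
        have := Multiset.nodup_iff_count_le_one.1 F.nodup v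
        omega)
    have h2 : mix r (α • x + β • x') 0 = α • mix r x 0 + β • mix r x' 0 := by
      funext i; by_cases h : i ∈ r <;> simp [mix, h]
    have h3 : (fun b => C.pt (mix r 0 y) b + (algebraMap ℝ _ α * C.pt (mix r x 0) b +
        algebraMap ℝ _ β * C.pt (mix r x' 0) b)) = C.pt (mix r (α • x + β • x') y) := by
      rw [e (α • x + β • x'), h2]
      funext b
      rw [pt_lin]
    rw [h3] at h1
    simp only [← e, ← Cf.val_eq, ← Algebra.smul_def, AddMonoidAlgebra.coeff_sub,
      AddMonoidAlgebra.coeff_smul, Finsupp.sub_apply, Finsupp.smul_apply, smul_eq_mul] at h1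
    simp only [cv]
    linarith
  exact ⟨fun x x' => by simpa using key 1 1 x x', fun α x => by simpa using key α 0 x 0⟩

theorem lin_cv (lam : ℝ) {v : V} (a : T.ι) {F : Finset V} (hv : v ∈ F) :
    Lin ((sys T cd fc c lam).st v) (cv T cd fc a F) := by
  refine (aff_cv lam v a F).lin fun y => ?_
  rw [cv, Cf.val_eq]
  refine (P057PC.Sup.eval (P := fun m => v ∉ m) (Q := fun m => v ∉ m) (by simp)
    (fun _ _ h h' => by simp [h, h']) (fun _ _ h h' => by simp [h, h'])
    ((fr cd fc 0).sup_pt fun l hl h => hl (mix_pos (0 : L → ℝ) y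
      (((sys T cd fc c lam).mem_st (v := v) (i := l)).2 h))) fun β => ?_).coeff (not_not.2 hv)
  simp only [fr, add_zero, MvPolynomial.coeff_map]
  exact P057PC.Sup.single (by simp) _

theorem Fr.sys_ok (h : Fr T.lv cd fc) (hT : T.Ok s N) (c : L → ℝ) {lam : ℝ} (hl : 0 < lam) :
    (sys T cd fc c lam).Ok := by
  refine ⟨((h.ok c).posDef (ok_tw hT)).smul hl, fun i j hij => ?_, fun i z z' hz => ?_,
    fun v i _ => aff_add (aff_cv lam v _ _) (aff_const _ _)⟩
  · have h1 : fc i = fc j := by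
      by_contra h1
      exact hij ((congrArg (lam * ·) ((fr cd fc c).Gam_ne T.tw
        fun h2 => h1 (Finset.val_injective h2))).trans (mul_zero _))
    exact ⟨h1, by change T.lv _ = T.lv _; rw [← h.card, ← h.card, h1]⟩
  · rw [sys_p, sys_p, cv, cv, (fr cd fc 0).val_ideal T.tw (I := fun m => ¬ m ≤ (fc i).val)
      (fun m m' h1 h2 => h1 ((Multiset.le_add_right m m').trans h2))
      (x' := fun j => if fc j ⊆ fc i then z j else z' j)
      (fun l hl => (if_pos (Finset.val_le_iff.1 (not_not.1 hl))).symm) _ (not_not.2 le_rfl),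
      (h.ok 0).val_congr (ok_tw hT) (x' := z') fun l hl => ?_]
    split_ifs with h1
    exacts [hz l ⟨h1, hl⟩, rfl]

theorem Fr.ne (h : Fr T.lv cd fc) (hT : T.Ok s N) (l : L) : (fc l).Nonempty :=
  card_pos.1 (by rw [h.card]; exact hT.pos _)

theorem Fr.sys_cen (h : Fr T.lv cd fc) (hT : T.Ok s N) (lam : ℝ) : (sys T cd fc 0 lam).Cen :=
  ⟨h.ne hT, fun v i hv y => (add_zero _).trans ((lin_cv lam _ hv).zero y)⟩

theorem Fr.lnr (h : Fr T.lv cd fc) (hT : T.Ok s N) [Fintype V] (c : L → ℝ) (lam : ℝ) :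
    (sys T cd fc c lam).lnr univ = sys T cd fc 0 lam := by
  have : ((sys T cd fc c lam).lnr univ).p = (sys T cd fc 0 lam).p := by
    funext z i
    have h1 := congrFun (MS.alt_of_lin (S := sys T cd fc c lam) (I := fc i)
      fun v hv => lin_cv lam (cd i) hv) z
    have h2 := congrArg (Int.cast : ℤ → ℝ) (sum_powerset_neg_one_pow_card_of_nonempty (h.ne hT i))
    push_cast at h2
    change (sys T cd fc c lam).alt (fc i ∩ univ) (fun z => (sys T cd fc c lam).p z i) z = _
    rw [inter_univ, sys_p, ← h1]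
    simp only [MS.alt, sys_p, mul_add, sum_add_distrib, ← sum_mul, h2, zero_mul, Pi.zero_apply]
  change (⟨_, _, _, ((sys T cd fc c lam).lnr univ).p⟩ : MS V L) = _
  rw [this]; rfl

omit [DecidableEq V] in
theorem wt_univ (S : MS V L) (z : L → ℤ) : S.wt univ z = gs S.G (toR z - S.p (toR z)) := by
  rw [MS.wt, if_pos fun i hi => (hi (mem_univ i)).elim]
  congr 1
  funext i; exact msk_pos _ (mem_univ i)

omit [DecidableEq V] in
theorem mass_univ (S : MS V L) : S.mass univ = ms S.G fun z => S.p (toR z) := by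
  simp only [MS.mass, wt_univ, vl_univ, ms, ng, tsum_div_const]

/-- a biased phase on a configuration with any centres is biased on the centred system -/
theorem Fr.bias (h : Fr T.lv cd fc) (hT : T.Ok s N) [Fintype V] [Nonempty V] (c : L → ℝ) {lam : ℝ}
    (hl : 0 < lam) {θ : (L → ℝ) → ℝ} (hθ : ∀ v, Lin ((sys T cd fc 0 lam).st v) θ) :
    ‖Ex (lam • (fr cd fc c).Gam T.tw) ((fr cd fc c).p T.tw) fun z => ee (θ (toR z))‖ *
      vl (sys T cd fc 0 lam).G univ ≤ (sys T cd fc 0 lam).bias univ θ := by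
  have h1 := (h.sys_ok hT c hl).norm_le_bias univ (θ := θ) univ_nonempty fun v _ => (hθ v).aff
  rw [h.lnr hT, MS.alt_of_lin (S := sys T cd fc c lam) fun v _ => hθ v] at h1
  refine le_trans (le_of_eq ?_) h1
  have hv := vol_pos (h.sys_ok hT c hl).pd
  rw [vl_univ, ← Real.norm_of_nonneg (vol_pos (h.sys_ok hT 0 hl).pd).le, ← Complex.norm_real,
    ← norm_mul, Ex, ← tsum_mul_right]
  refine congrArg norm (tsum_congr fun z => ?_)
  rw [wt_univ, mul_right_comm, ← Complex.ofReal_mul, ng]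
  congr 2
  exact div_mul_cancel₀ _ hv.ne'

section blow

variable {K : Type} [Fintype K] [DecidableEq K] [Fintype V] {k0 : K} {lam : ℝ}

/-- the faces of the blown up labels -/
def bfc (fc : L → Finset V) (k0 : K) (a : BI fc k0) : Finset (V × K) :=
  (fc a.1.1).image fun v => (v, a.1.2 v)

theorem mem_bfc {a : BI fc k0} {w : V × K} : w ∈ bfc fc k0 a ↔ w.1 ∈ fc a.1.1 ∧ a.1.2 w.1 = w.2 :=
  mem_fc_blow (S := ⟨fc, 0, 0, 0⟩)

theorem bfc_eq {a b : BI fc k0} : bfc fc k0 a = bfc fc k0 b ↔ a.1.2 = b.1.2 ∧ fc a.1.1 = fc b.1.1 := by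
  refine ⟨fun h => ?_, fun h => by rw [bfc, bfc, h.1, h.2]⟩
  obtain ⟨h5, h6⟩ := (fc_blow_sub (S := ⟨fc, 0, 0, 0⟩)).1 h.subset
  have h7 : fc a.1.1 = fc b.1.1 :=
    Subset.antisymm h5 ((fc_blow_sub (S := ⟨fc, 0, 0, 0⟩)).1 h.superset).1
  refine ⟨funext fun v => ?_, h7⟩
  by_cases hv : v ∈ fc a.1.1
  · exact h6 v hv
  · exact (a.2 v hv).trans (b.2 v (h7 ▸ hv)).symm

theorem bfc_cp (χ : V → K) (l : L) : bfc fc k0 (cp fc k0 χ l) = (fc l).image fun v => (v, χ v) :=
  fc_blow_cp (S := ⟨fc, 0, 0, 0⟩) χ l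

theorem Fr.blow (h : Fr T.lv cd fc) (k0 : K) :
    Fr T.lv (fun a : BI fc k0 => cd a.1.1) (bfc fc k0) := by
  refine ⟨fun a b h1 h2 => ?_, fun a => (card_fc_blow (S := ⟨fc, 0, 0, 0⟩) a).trans (h.card _),
    fun a F b h1 h2 => ?_⟩
  · exact Subtype.ext (Prod.ext (h.inj _ _ h1 (bfc_eq.1 h2).2) (bfc_eq.1 h2).1)
  · have hi : Set.InjOn Prod.fst (F : Set (V × K)) := fun w hw w' hw' e =>
      Prod.ext e (by rw [← (mem_bfc.1 (h1 hw)).2, ← (mem_bfc.1 (h1 hw')).2, e])
    obtain ⟨l, h3, h4⟩ := h.clo a.1.1 (F.image Prod.fst) b (fun v hv => by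
      obtain ⟨w, hw, rfl⟩ := mem_image.1 hv
      exact (mem_bfc.1 (h1 hw)).1) ((card_image_of_injOn hi).trans h2)
    refine ⟨cp fc k0 a.1.2 l, h3, ?_⟩
    rw [bfc_cp, h4, image_image]
    refine (image_congr fun w hw => ?_).trans image_id
    exact Prod.ext rfl (mem_bfc.1 (h1 hw)).2

omit [Fintype L] [DecidableEq L] [Fintype K] [DecidableEq K] in
theorem coeff_sel {V' : Type} [DecidableEq V'] {j : V → V'} (hj : Function.Injective j)
    (u : Alg (Multiset V')) (m : Multiset V) :
    (P057ST.sb (P057ST.sel j) u).coeff m = u.coeff (m.map j) := by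
  induction u using AddMonoidAlgebra.induction_linear with
  | zero => simp
  | add u v hu hv => simp only [map_add, AddMonoidAlgebra.coeff_add, Finsupp.add_apply, hu, hv]
  | single m' r =>
    have := P057ST.cf_sel hj m' m
    rw [P057ST.cf] at this
    rw [← mul_one r, ← smul_eq_mul, ← AddMonoidAlgebra.smul_single, map_smul,
      AddMonoidAlgebra.coeff_smul, AddMonoidAlgebra.coeff_smul, Finsupp.smul_apply,
      Finsupp.smul_apply, this, AddMonoidAlgebra.coeff_single, Finsupp.single_apply]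

theorem val_cp (χ : V → K) (l : L) :
    (bfc fc k0 (cp fc k0 χ l)).val = (fc l).val.map fun v => (v, χ v) := by
  rw [bfc_cp]
  exact image_val_of_injOn fun _ _ _ _ e => congrArg Prod.fst e

theorem cv_blow (χ : V → K) (z : BI fc k0 → ℝ) (a : T.ι) (l : L) :
    cv T (fun a : BI fc k0 => cd a.1.1) (bfc fc k0) a (bfc fc k0 (cp fc k0 χ l)) z =
      cv T cd fc a (fc l) (z ∘ cp fc k0 χ) := by
  classical
  have hj : Function.Injective fun v => (v, χ v) := fun _ _ e => congrArg Prod.fst e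
  have h1 : ∀ b, P057ST.sb (P057ST.sel fun v => (v, χ v))
      ((fr (fun a : BI fc k0 => cd a.1.1) (bfc fc k0) 0).pt z b) =
      (fr cd fc 0).pt (z ∘ cp fc k0 χ) b := fun b => by
    ext m
    rw [coeff_sel hj, Cf.coeff_pt, Cf.coeff_pt]
    refine (Fintype.sum_of_injective _ (cp_inj fc k0 χ) _ _ (fun i hi => if_neg fun h => hi ?_)
      fun i => ?_).symm
    · refine ⟨i.1.1, (cp_congr fun v hv => ?_).trans (cp_self i)⟩
      have h2 : (v, i.1.2 v) ∈ (bfc fc k0 i).val := mem_bfc.2 ⟨hv, rfl⟩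
      have h3 : (bfc fc k0 i).val = _ := h.2
      rw [h3] at h2
      obtain ⟨w, -, hw⟩ := Multiset.mem_map.1 h2
      obtain ⟨rfl, h3⟩ := Prod.ext_iff.1 hw
      exact h3
    · refine if_congr (and_congr Iff.rfl ?_) rfl rfl
      change (fc i).val = m ↔ (bfc fc k0 (cp fc k0 χ i)).val = _
      rw [val_cp, (Multiset.map_injective hj).eq_iff]
  unfold cv
  rw [val_cp, ← coeff_sel hj, Cf.val, Cf.val, ← funext h1, ← MvPolynomial.comp_aeval_apply]
  simp [fr]

theorem Gam_fr (T : Tow) (cd : L → T.ι) (fc : L → Finset V) (c : L → ℝ) (l l' : L) :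
    (fr cd fc c).Gam T.tw l l' = if fc l = fc l' then T.G (cd l) (cd l') else 0 := by
  split_ifs with h
  exacts [Cf.Gam_eq _ _ (congrArg Finset.val h),
    Cf.Gam_ne _ _ fun h2 => h (Finset.val_injective h2)]

/-- the counting lemma gives smoothness -/
theorem Fr.smo (h : Fr T.lv cd fc) (hT : T.Ok s N) {d n n' : ℕ} {Λ η W : ℝ}
    (hLF : T.tw.LF d n' Λ η) (hd : ∀ l, T.lv (cd l) ≤ d) (hn : Fintype.card V * n ≤ n')
    (hl : 0 < lam) (hW : 0 < W) (hΛ : W ^ 2 * lam ≤ Λ) : Smo (sys T cd fc 0 lam) univ n W η := by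
  intro K _ _ k0 hK
  have h1 := hLF.std (ok_tw hT) ((h.blow k0).ok 0)
    (by rw [Fintype.card_prod]; exact (Nat.mul_le_mul_left _ hK).trans hn) (fun l => hd _)
    (by positivity) hΛ
  have h2 : vld (sys T cd fc 0 lam).fc k0 univ = univ := by ext a; simp [mem_vld]
  rw [h2, mass_univ]
  refine le_trans (le_of_eq ?_) (sub_le_iff_le_add'.1 (abs_le.1 h1).2)
  congr 1
  · refine Matrix.ext fun (a b : BI fc k0) => ?_
    change W ^ 2 * (if a.1.2 = b.1.2 then lam * (fr cd fc 0).Gam T.tw a.1.1 b.1.1 else 0) =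
      W ^ 2 * lam * (fr (fun a : BI fc k0 => cd a.1.1) (bfc fc k0) 0).Gam T.tw a b
    simp only [Gam_fr, bfc_eq]
    by_cases h3 : a.1.2 = b.1.2 <;> simp [h3, mul_assoc]
  · funext z a
    have := cv_blow (cd := cd) a.1.2 (toR z) (cd a.1.1) a.1.1
    rw [cp_self] at this
    exact congrArg (· + (0 : ℝ)) this.symm

end blow

end

end Vale.Agent.P057TE
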