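import Vale.Agent.P057TE.Cube
import Mathlib.Algebra.MvPolynomial.Funext
import Mathlib.Algebra.MvPolynomial.Monad

/-!
Integer forms are integer polynomials; the diagonal of a cube.
-/

set_option linter.all false

open Matrix Finset
open Vale.Agent.P267.H775 Vale.Agent.P057G Vale.Agent.P057PC Vale.Agent.P057TP Vale.Agent.P057MA

namespace Vale.Agent.P057TE

noncomputable section

section poly

variable {σ τ R : Type*} [CommRing R] {w : σ → ℕ} {n : ℕ} {Q : MvPolynomial σ R}

theorem hom_aeval (h : Q.IsWeightedHomogeneous w n) {w' : τ → ℕ} {g : σ → MvPolynomial τ R}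
    (hg : ∀ a, (g a).IsWeightedHomogeneous w' (w a)) :
    (MvPolynomial.aeval g Q).IsWeightedHomogeneous w' n := by
  induction h using MvPolynomial.IsWeightedHomogeneous.induction_on with
  | zero => rw [map_zero]; exact MvPolynomial.isWeightedHomogeneous_zero _ _ _
  | add p q _ _ hp hq => rw [map_add]; exact hp.add hq
  | monomial d r hr =>
    rw [MvPolynomial.aeval_monomial, ← hr]
    exact (MvPolynomial.IsWeightedHomogeneous.prod _ _ _ fun i _ => (hg i).pow (d i)).C_mul r

theorem prod_scale {A : Type*} [CommRing A] (t : A) (y : σ → A) (d : σ →₀ ℕ) :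
    (d.prod fun i k => (t ^ w i * y i) ^ k) = t ^ Finsupp.weight w d * d.prod fun i k => y i ^ k := by
  simp only [Finsupp.prod, mul_pow, prod_mul_distrib, ← pow_mul, prod_pow_eq_pow_sum,
    Finsupp.weight_apply, Finsupp.sum, smul_eq_mul, mul_comm]

theorem aeval_scale (h : Q.IsWeightedHomogeneous w n) {A : Type*} [CommRing A] [Algebra R A]
    (t : A) (y : σ → A) :
    MvPolynomial.aeval (fun a => t ^ w a * y a) Q = t ^ n * MvPolynomial.aeval y Q := by
  induction h using MvPolynomial.IsWeightedHomogeneous.induction_on with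
  | zero => simp
  | add p q _ _ hp hq => rw [map_add, map_add, hp, hq, mul_add]
  | monomial d r hr =>
    rw [MvPolynomial.aeval_monomial, MvPolynomial.aeval_monomial, prod_scale, hr, mul_left_comm]

theorem hom_of_scale {J : MvPolynomial σ ℤ} (h : ∀ y : σ → ℝ,
    MvPolynomial.aeval (fun a => 2 ^ w a * y a) J = 2 ^ n * MvPolynomial.aeval y J) :
    J.IsWeightedHomogeneous w n := by
  classical
  have h1 : ∑ d ∈ J.support, MvPolynomial.monomial d
      (((J.coeff d : ℤ) : ℝ) * (2 ^ Finsupp.weight w d - 2 ^ n)) = 0 := by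
    refine MvPolynomial.funext fun y => ?_
    have := h y
    rw [J.as_sum, map_sum, map_sum, mul_sum, ← sub_eq_zero, ← sum_sub_distrib] at this
    rw [map_zero, map_sum, ← this]
    refine sum_congr rfl fun d _ => ?_
    rw [MvPolynomial.aeval_monomial, MvPolynomial.aeval_monomial, prod_scale,
      MvPolynomial.eval_monomial, eq_intCast]
    ring
  intro d hd
  have h2 := congrArg (MvPolynomial.coeff d) h1
  rw [MvPolynomial.coeff_sum, MvPolynomial.coeff_zero] at h2
  simp only [MvPolynomial.coeff_monomial, sum_ite_eq', MvPolynomial.mem_support_iff.2 hd,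
    if_true] at h2
  exact pow_right_injective₀ two_pos (by norm_num)
    (sub_eq_zero.1 ((mul_eq_zero.1 h2).resolve_left (Int.cast_ne_zero.2 hd)))

end poly

variable {V L : Type} [Fintype L] [DecidableEq L] [DecidableEq V]

/-- multi-affine functions with integer values are integer polynomials -/
theorem exists_poly {S : MS V L} (hne : ∀ i, (S.fc i).Nonempty) (A : Finset V) :
    ∀ (q : Finset L) (f : (L → ℝ) → ℝ), (∀ i ∈ q, S.fc i ⊆ A) → Af S q A f → IntV f →
      ∃ I : MvPolynomial L ℤ, ∀ z, f z = MvPolynomial.aeval z I := by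
  induction A using Finset.induction_on with
  | empty =>
    intro q f hq hf hi
    obtain ⟨n, hn⟩ := hi 0
    refine ⟨MvPolynomial.C n, fun z => ?_⟩
    rw [MvPolynomial.aeval_C, eq_intCast, ← hn]
    exact hf.on _ _ fun i h => absurd (subset_empty.1 (hq i h)) (hne i).ne_empty
  | insert v A hv ih =>
    intro q f hq hf hi
    have h1 : ∀ a : L → ℤ, ∃ I : MvPolynomial L ℤ, ∀ z, f (mix (S.st v) (toR a) z) =
        MvPolynomial.aeval z I := fun a =>
      ih _ _ (fun i h => (subset_insert_iff_of_notMem fun h2 =>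
          (Finset.mem_sdiff.1 h).2 (S.mem_st.2 h2)).1 (hq i (Finset.mem_sdiff.1 h).1))
        ((hf.fix v (toR a)).mono Subset.rfl (subset_insert _ _)) fun z => by
          beta_reduce; rw [← toR_mix]; exact hi _
    choose I hI using h1
    refine ⟨I 0 + ∑ j ∈ q ∩ S.st v, (I (Pi.single j 1) - I 0) * MvPolynomial.X j, fun z => ?_⟩
    have h2 := aff_expand hf.on (hf.aff v (mem_insert_self _ _)) z z
    have h3 : ∀ j : L, toR (Pi.single j 1) = Pi.single j 1 := fun j => by
      funext i; by_cases h : i = j <;> simp [h, Pi.single_apply]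
    rw [mix_self] at h2
    simp only [map_add, map_sum, map_mul, map_sub, MvPolynomial.aeval_X, ← hI, toR_zero, h3]
    exact h2

variable [Fintype V]

theorem coeff_pow (n : ℕ) : ∀ F : Finset V, ((P057ST.lin fun _ : V => (1 : ℝ)) ^ n).coeff F.val =
    if F.card = n then (n.factorial : ℝ) else 0 := by
  induction n with
  | zero =>
    intro F
    rw [pow_zero, AddMonoidAlgebra.one_def, AddMonoidAlgebra.coeff_single, Finsupp.single_apply]
    simp [eq_comm]
  | succ n ih =>
    intro F
    rw [pow_succ', P057ST.lin, sum_mul, AddMonoidAlgebra.coeff_sum, Finsupp.finsetSum_apply]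
    have : ∀ v : V, (AddMonoidAlgebra.single {v} (1 : ℝ) * (P057ST.lin fun _ : V => (1 : ℝ)) ^ n).coeff
        F.val = if v ∈ F then if F.card = n + 1 then (n.factorial : ℝ) else 0 else 0 := fun v => by
      rw [P057ST.coeff_gen_mul, one_mul, ← erase_val, ih]
      by_cases h : v ∈ F
      · have := card_erase_add_one h
        rw [if_pos (mem_def.1 h), if_pos h]
        exact if_congr (by omega) rfl rfl
      · rw [if_neg (by simpa using h), if_neg h]
    refine (sum_congr rfl fun v _ => this v).trans ?_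
    rw [← sum_filter, filter_mem_eq_inter, univ_inter, sum_const, nsmul_eq_mul]
    split_ifs with h
    · rw [h, Nat.factorial_succ, Nat.cast_mul]
    · exact mul_zero _

variable {T : Tow} {cd : L → T.ι} {fc : L → Finset V} {s : ℕ} {N : ℝ}

/-- the diagonal point of the cube -/
def dgl (cd : L → T.ι) (fc : L → Finset V) (y : T.ι → ℝ) : L → ℝ :=
  fun l => ((fc l).card.factorial : ℝ) * y (cd l)

/-- the labels are all proper faces -/
structure Cu (lv : T.ι → ℕ) (cd : L → T.ι) (fc : L → Finset V) : Prop extends Fr lv cd fc where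
  ne : ∀ l, fc l ≠ univ
  all : ∀ F a, F ≠ univ → F.card = lv a → ∃ l, cd l = a ∧ fc l = F

theorem Cu.lt (h : Cu T.lv cd fc) (l : L) : T.lv (cd l) < Fintype.card V := by
  rw [← h.card]; exact (card_lt_iff_ne_univ _).2 (h.ne l)

theorem Cu.coeff (h : Cu T.lv cd fc) (y : T.ι → ℝ) (a : T.ι) (F : Finset V)
    (hF : F ≠ univ ∨ y a = 0) : ((fr cd fc 0).pt (dgl cd fc y) a).coeff F.val =
      (if F.card = T.lv a then (F.card.factorial : ℝ) else 0) * y a := by
  classical
  by_cases h1 : ∃ l, cd l = a ∧ fc l = F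
  · obtain ⟨l, rfl, rfl⟩ := h1
    rw [if_pos (h.card l)]
    exact (h.ok 0).coeff_pt _ l
  · rw [Cf.coeff_pt, sum_eq_zero fun l _ => if_neg fun h2 => h1 ⟨l, h2.1, Finset.val_injective h2.2⟩]
    split_ifs with h2
    · rw [hF.resolve_left fun h3 => h1 (h.all F a h3 h2), mul_zero]
    · rw [zero_mul]

theorem Cu.cv (h : Cu T.lv cd fc) (hT : T.Ok s N) {y : T.ι → ℝ}
    (hy : ∀ a, Fintype.card V ≤ T.lv a → y a = 0) {a : T.ι} {F : Finset V} (hF : F.card = T.lv a) :
    cv T cd fc a F (dgl cd fc y) = F.card.factorial * MvPolynomial.eval y (T.q a) := by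
  classical
  have h1 := (P057PC.Sup.eval_sub (I := fun m : Multiset V => ¬ m.Nodup)
    (fun m m' h1 h2 => h1 (Multiset.nodup_add.1 h2).1) (x := (fr cd fc 0).pt (dgl cd fc y))
    (x' := fun b => (P057ST.lin fun _ => 1) ^ T.lv b * algebraMap ℝ _ (y b)) (fun b m hm h2 => hm ?_)
    (MvPolynomial.map (algebraMap ℝ _) (T.tw.q a) + (fr cd fc 0).R a)).coeff (not_not.2 F.nodup)
  · rw [← Cf.val_eq, AddMonoidAlgebra.coeff_sub, Finsupp.sub_apply, sub_eq_zero] at h1
    rw [P057TE.cv, h1]
    change AddMonoidAlgebra.coeff (MvPolynomial.eval _ (MvPolynomial.map _ (T.q a) + 0)) _ = _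
    rw [add_zero, MvPolynomial.eval_map, ← MvPolynomial.aeval_def, aeval_scale (hT.hom a),
      show (fun b => algebraMap ℝ (Alg (Multiset V)) (y b)) = algebraMap ℝ _ ∘ y from rfl,
      MvPolynomial.aeval_algebraMap_apply, mul_comm, ← Algebra.smul_def,
      AddMonoidAlgebra.coeff_smul, Finsupp.smul_apply, coeff_pow, if_pos hF, hF, smul_eq_mul,
      mul_comm, MvPolynomial.aeval_eq_eval]
  · have h3 := h.coeff y b ⟨m, h2⟩
    have h4 := coeff_pow (T.lv b) (⟨m, h2⟩ : Finset V)
    rw [AddMonoidAlgebra.coeff_sub, Finsupp.sub_apply, mul_comm, ← Algebra.smul_def,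
      AddMonoidAlgebra.coeff_smul, Finsupp.smul_apply, h4, smul_eq_mul, sub_eq_zero]
    by_cases h5 : (⟨m, h2⟩ : Finset V).card = T.lv b
    · rw [h3, if_pos h5, if_pos h5, h5, mul_comm]
      by_contra h6
      rw [not_or, not_not] at h6
      exact h6.2 (hy b (by rw [← h5, h6.1, card_univ]))
    · rw [if_neg h5, mul_zero, Cf.coeff_pt]
      refine sum_eq_zero fun l _ => if_neg fun h6 => h5 ?_
      rw [← show cd l = b from h6.1, ← h.card]
      exact congrArg Multiset.card h6.2.symm

/-- the length of the diagonal point -/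
theorem Cu.ln2 (h : Cu T.lv cd fc) (hT : T.Ok s N) {y : T.ι → ℝ}
    (hy : ∀ a, Fintype.card V ≤ T.lv a → y a = 0) {lam ρ : ℝ} (hl : 0 ≤ lam) (h0 : 0 ≤ ρ)
    (hρ : ∀ e, e < Fintype.card V → T.ln e y ≤ ρ) :
    ln2 (sys T cd fc 0 lam) univ (dgl cd fc y) ≤
      lam * (2 ^ Fintype.card V * ((Fintype.card V).factorial ^ 2 * ρ)) := by
  classical
  have h1 : msk univ (dgl cd fc y - (sys T cd fc 0 lam).p (dgl cd fc y)) = dgl cd fc (T.ps y) := by
    funext l
    rw [msk_pos _ (mem_univ l), Pi.sub_apply, sys_p, h.cv hT hy (h.card l)]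
    simp only [dgl, Tow.ps, Pi.zero_apply]
    ring
  rw [P057MA.ln2, h1]
  refine (qq_smul_mat _ _ _).trans_le (mul_le_mul_of_nonneg_left ?_ hl)
  rw [Cf.qq_Gam]
  refine (sum_le_card_nsmul _ _ ((Fintype.card V).factorial ^ 2 * ρ) fun m hm => ?_).trans ?_
  · obtain ⟨l, -, rfl⟩ := mem_image.1 hm
    have h2 : (fun a => ((fr cd fc 0).pt (dgl cd fc (T.ps y)) a).coeff (fc l).val) =
        ((fc l).card.factorial : ℝ) • fun a => if T.lv a = (fc l).card then T.ps y a else 0 := by
      funext a
      rw [h.coeff _ a _ (Or.inl (h.ne l))]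
      by_cases h3 : T.lv a = (fc l).card <;> simp [h3, eq_comm]
    have h3 : (fc l).card < Fintype.card V := (card_lt_iff_ne_univ _).2 (h.ne l)
    refine le_trans (le_of_eq ((congrArg (qq T.G) h2).trans (qq_smul _ _ _))) ?_
    refine mul_le_mul (pow_le_pow_left₀ (Nat.cast_nonneg _) ?_ 2) (hρ _ h3)
      (qq_nonneg hT.pd.posSemidef _) (sq_nonneg _)
    exact_mod_cast Nat.factorial_le h3.le
  · rw [nsmul_eq_mul]
    refine mul_le_mul_of_nonneg_right ?_ (by positivity)
    have h2 : univ.image (fr cd fc (0 : L → ℝ)).mo ⊆ univ.image Finset.val := fun m hm => by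
      obtain ⟨l, -, rfl⟩ := mem_image.1 hm
      exact mem_image_of_mem _ (mem_univ (fc l))
    exact_mod_cast (card_le_card h2).trans (card_image_le.trans (by simp))

theorem card_tow (hT : T.Ok s N) {D : ℝ} (h : ∀ e, T.dm e ≤ D) :
    (Fintype.card T.ι : ℝ) ≤ (s + 1) * D := by
  rw [← card_univ, card_eq_sum_card_fiberwise (f := T.lv) (t := range (s + 1))
    fun a _ => mem_coe.2 (mem_range.2 (Nat.lt_succ_of_le (hT.le a))), Nat.cast_sum]
  refine (sum_le_card_nsmul _ _ D fun e _ => h e).trans (le_of_eq (by simp))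

theorem Fr.card_le (h : Fr T.lv cd fc) : Fintype.card L ≤ Fintype.card T.ι * 2 ^ Fintype.card V := by
  simpa using Fintype.card_le_of_injective (fun l => (cd l, fc l))
    fun l l' e => h.inj l l' (congrArg Prod.fst e) (congrArg Prod.snd e)

theorem cu_el (T : Tow) {D : ℕ} (σ : Fin D → Unit) :
    Cu T.lv (fun l : EL T.tw σ => l.1.1) fun l => l.1.2 := by
  have h1 : ∀ (F : Finset (Fin D)) a, F ≠ univ → F.card = T.lv a →
      ∃ l : EL T.tw σ, l.1.1 = a ∧ l.1.2 = F :=
    fun F a h1 h2 => ⟨⟨(a, F), h1, (Multiset.card_map _ _).trans h2⟩, rfl, rfl⟩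
  exact ⟨⟨fun l l' a b => Subtype.ext (Prod.ext a b), fun l => (Multiset.card_map _ _).symm.trans l.2.2,
    fun l F a h2 h3 => h1 F a (fun h4 => l.2.1 (univ_subset_iff.1 (h4 ▸ h2))) h3⟩,
    fun l => l.2.1, h1⟩

end

end Vale.Agent.P057TE
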